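import Vale.Agent.Lib.P368.D3.Cheb

/-! # Chebyshev polynomials of both kinds: growth bounds (scalar facts) -/

namespace Vale.Agent.Lib.P368

/-- the recursion of the second kind: `U_0 = 1`, `U_1 = 2 x`, `U_{k+2} = 2 x U_{k+1} - U_k` -/
noncomputable def chebU (x : ℝ) : ℕ → ℝ
  | 0 => 1
  | 1 => 2 * x
  | (k + 2) => 2 * x * chebU x (k + 1) - chebU x k

/-- the growth rate `θ + sqrt (θ ^ 2 - 1)` -/
noncomputable def gro (θ : ℝ) : ℝ := θ + Real.sqrt (θ ^ 2 - 1)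

theorem one_le_gro {θ : ℝ} (hθ : 1 ≤ θ) : 1 ≤ gro θ := by
  have h := Real.sqrt_nonneg (θ ^ 2 - 1)
  unfold gro
  linarith

theorem le_gro (θ : ℝ) : θ ≤ gro θ := by
  have h := Real.sqrt_nonneg (θ ^ 2 - 1)
  unfold gro
  linarith

/-- parity of the Chebyshev recursion (two-step induction) -/
theorem cheb_neg_aux (x : ℝ) (k : ℕ) :
    cheb (-x) k = (-1) ^ k * cheb x k ∧ cheb (-x) (k + 1) = (-1) ^ (k + 1) * cheb x (k + 1) := by
  induction k with
  | zero => simp [cheb_zero, cheb_one]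
  | succ k ih =>
    refine ⟨ih.2, ?_⟩
    rw [cheb_succ_succ, cheb_succ_succ, ih.1, ih.2]
    ring

theorem cheb_neg_abs (x : ℝ) (k : ℕ) : |cheb (-x) k| = |cheb x k| := by
  rw [(cheb_neg_aux x k).1, abs_mul, abs_pow, abs_neg, abs_one, one_pow, one_mul]

/-- the bound for `1 ≤ y ≤ θ` -/
theorem cheb_abs_le_gro_of_one_le {θ y : ℝ} (hy : 1 ≤ y) (hyθ : y ≤ θ) (k : ℕ) :
    |cheb y k| ≤ gro θ ^ k := by
  have hnn : 0 ≤ y ^ 2 - 1 := by nlinarith
  set s : ℝ := Real.sqrt (y ^ 2 - 1) with hs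
  have hs2 : s * s = y ^ 2 - 1 := Real.mul_self_sqrt hnn
  have hs0 : 0 ≤ s := Real.sqrt_nonneg _
  have hsum : (y + s) + (y - s) = 2 * y := by ring
  have hprod : (y + s) * (y - s) = 1 := by
    have : (y + s) * (y - s) = y ^ 2 - s * s := by ring
    rw [this, hs2]; ring
  have hp1 : 1 ≤ y + s := by linarith
  have hq0 : 0 ≤ y - s := by
    by_contra hneg0
    have hneg : y - s < 0 := not_le.mp hneg0
    have : (y + s) * (y - s) < 0 := mul_neg_of_pos_of_neg (by linarith) hneg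
    linarith
  have hq1 : y - s ≤ 1 := by
    by_contra hgt0
    have hgt : 1 < y - s := not_le.mp hgt0
    have : 1 * 1 < (y + s) * (y - s) := by nlinarith
    linarith
  have hsle : s ≤ Real.sqrt (θ ^ 2 - 1) := by
    apply Real.sqrt_le_sqrt
    nlinarith
  have hpg : y + s ≤ gro θ := by
    unfold gro
    linarith
  rw [(cheb_closed_aux hsum hprod k).1]
  have h1 : (y + s) ^ k ≤ gro θ ^ k := pow_le_pow_left₀ (by linarith) hpg k
  have h2 : 0 ≤ (y - s) ^ k := pow_nonneg hq0 k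
  have h3 : (y - s) ^ k ≤ 1 := pow_le_one₀ hq0 hq1
  have h4 : 1 ≤ (y + s) ^ k := one_le_pow₀ hp1
  rw [abs_of_nonneg (by linarith)]
  linarith

/-- If `|x| ≤ 1` use `cheb_abs_le_one`.  If `1 ≤ |x| ≤ θ`: `cheb (-x) k = (-1) ^ k * cheb x k`, and
for `x ≥ 1` the closed form `cheb_closed_aux` with `p = gro x`, `q = x - sqrt (x ^ 2 - 1)`,
`0 ≤ q ≤ 1 ≤ p ≤ gro θ`. -/
theorem cheb_abs_le_gro {θ x : ℝ} (hθ : 1 ≤ θ) (hx : |x| ≤ θ) (k : ℕ) :
    |cheb x k| ≤ gro θ ^ k := by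
  rcases le_total |x| 1 with h1 | h1
  · exact (cheb_abs_le_one h1 k).trans (one_le_pow₀ (one_le_gro hθ))
  · rcases le_total 0 x with h0 | h0
    · rw [abs_of_nonneg h0] at h1 hx
      exact cheb_abs_le_gro_of_one_le h1 hx k
    · rw [abs_of_nonpos h0] at h1 hx
      rw [← cheb_neg_abs]
      exact cheb_abs_le_gro_of_one_le h1 hx k

theorem chebU_zero (x : ℝ) : chebU x 0 = 1 := rfl

theorem chebU_one (x : ℝ) : chebU x 1 = 2 * x := rfl

theorem chebU_succ_succ (x : ℝ) (k : ℕ) :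
    chebU x (k + 2) = 2 * x * chebU x (k + 1) - chebU x k := rfl

/-- `U_{k+1} = x U_k + T_{k+1}` (two-step induction) -/
theorem chebU_succ_aux (x : ℝ) (k : ℕ) :
    chebU x (k + 1) = x * chebU x k + cheb x (k + 1) ∧
      chebU x (k + 2) = x * chebU x (k + 1) + cheb x (k + 2) := by
  induction k with
  | zero =>
    refine ⟨?_, ?_⟩
    · rw [chebU_one, chebU_zero, cheb_one]; ring
    · rw [chebU_succ_succ, cheb_succ_succ, chebU_one, chebU_zero, cheb_one, cheb_zero]; ring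
  | succ k ih =>
    refine ⟨ih.2, ?_⟩
    have a := ih.1
    have b := ih.2
    have c := chebU_succ_succ x k
    rw [chebU_succ_succ x (k + 1), cheb_succ_succ x (k + 1)]
    linear_combination (2 * x) * b - a - x * c

theorem chebU_succ (x : ℝ) (k : ℕ) :
    chebU x (k + 1) = x * chebU x k + cheb x (k + 1) := (chebU_succ_aux x k).1

/-- `U_{k+1} = x U_k + T_{k+1}` (two-step induction), `|x| ≤ θ ≤ gro θ`, `cheb_abs_le_gro` -/
theorem chebU_abs_le_gro {θ x : ℝ} (hθ : 1 ≤ θ) (hx : |x| ≤ θ) (k : ℕ) :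
    |chebU x k| ≤ ((k : ℝ) + 1) * gro θ ^ k := by
  induction k with
  | zero => simp [chebU_zero]
  | succ k ih =>
    have hg0 : 0 ≤ gro θ := le_trans zero_le_one (one_le_gro hθ)
    have hxg : |x| ≤ gro θ := hx.trans (le_gro θ)
    have hT := cheb_abs_le_gro hθ hx (k + 1)
    have h1 : |x * chebU x k| ≤ gro θ * (((k : ℝ) + 1) * gro θ ^ k) := by
      rw [abs_mul]
      exact mul_le_mul hxg ih (abs_nonneg _) hg0
    rw [chebU_succ]
    calc |x * chebU x k + cheb x (k + 1)| ≤ |x * chebU x k| + |cheb x (k + 1)| := abs_add_le _ _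
      _ ≤ gro θ * (((k : ℝ) + 1) * gro θ ^ k) + gro θ ^ (k + 1) := add_le_add h1 hT
      _ = (((k + 1 : ℕ) : ℝ) + 1) * gro θ ^ (k + 1) := by push_cast; ring

end Vale.Agent.Lib.P368
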