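import Vale.Agent.Lib.P368.D4.OpNorm
import Vale.Agent.Lib.P368.D4R.ChebU

/-! # Chebyshev polynomials of a Hermitian operator: norm bounds -/

namespace Vale.Agent.Lib.P368

open Matrix Finset
open scoped Matrix.Norms.L2Operator

set_option linter.unusedSectionVars false

variable {ι : Type} [Fintype ι] [DecidableEq ι]

/-- Chebyshev polynomials of the first kind of an operator -/
noncomputable def chebOp (A : Op ι) : ℕ → Op ι
  | 0 => 1
  | 1 => A
  | (k + 2) => (2 : ℂ) • (A * chebOp A (k + 1)) - chebOp A k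

/-- Chebyshev polynomials of the second kind of an operator -/
noncomputable def chebUOp (A : Op ι) : ℕ → Op ι
  | 0 => 1
  | 1 => (2 : ℂ) • A
  | (k + 2) => (2 : ℂ) • (A * chebUOp A (k + 1)) - chebUOp A k

/-- the spectral theorem in matrix form -/
theorem exists_diag {A : Op ι} (hA : Aᴴ = A) :
    ∃ (V : Op ι) (d : (ι → Bool) → ℝ), Vᴴ * V = 1 ∧ V * Vᴴ = 1 ∧
      A = V * diagonal (fun i => (d i : ℂ)) * Vᴴ := by
  have hH : A.IsHermitian := hA
  refine ⟨(hH.eigenvectorUnitary : Op ι), hH.eigenvalues, ?_, ?_, ?_⟩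
  · have := Unitary.star_mul_self_of_mem hH.eigenvectorUnitary.2
    simpa [Matrix.star_eq_conjTranspose] using this
  · have := Unitary.mul_star_self_of_mem hH.eigenvectorUnitary.2
    simpa [Matrix.star_eq_conjTranspose] using this
  · have := hH.spectral_theorem
    rw [Unitary.conjStarAlgAut_apply] at this
    exact this

theorem opn_conj_le {V : Op ι} (h1 : Vᴴ * V = 1) (X : Op ι) : ‖V * X * Vᴴ‖ ≤ ‖X‖ := by
  have hV : ‖V‖ ≤ 1 := opn_unitary_le h1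
  have hV' : ‖Vᴴ‖ ≤ 1 := by rw [Matrix.l2_opNorm_conjTranspose]; exact hV
  calc ‖V * X * Vᴴ‖ ≤ ‖V * X‖ * ‖Vᴴ‖ := norm_mul_le _ _
    _ ≤ (‖V‖ * ‖X‖) * ‖Vᴴ‖ := mul_le_mul_of_nonneg_right (norm_mul_le _ _) (norm_nonneg _)
    _ ≤ (1 * ‖X‖) * 1 := by
        apply mul_le_mul _ hV' (norm_nonneg _) (by positivity)
        exact mul_le_mul_of_nonneg_right hV (norm_nonneg _)
    _ = ‖X‖ := by ring

theorem opn_conj_le' {V : Op ι} (h2 : V * Vᴴ = 1) (X : Op ι) : ‖Vᴴ * X * V‖ ≤ ‖X‖ := by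
  have := opn_conj_le (V := Vᴴ) (by rw [Matrix.conjTranspose_conjTranspose]; exact h2) X
  rwa [Matrix.conjTranspose_conjTranspose] at this

theorem opn_diag_le {f : (ι → Bool) → ℝ} {c : ℝ} (hc : 0 ≤ c) (h : ∀ i, |f i| ≤ c) :
    ‖(diagonal (fun i => (f i : ℂ)) : Op ι)‖ ≤ c := by
  rw [Matrix.l2_opNorm_diagonal, pi_norm_le_iff_of_nonneg hc]
  intro i
  rw [Complex.norm_real, Real.norm_eq_abs]
  exact h i

theorem abs_le_opn_diag (f : (ι → Bool) → ℝ) (i : ι → Bool) :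
    |f i| ≤ ‖(diagonal (fun i => (f i : ℂ)) : Op ι)‖ := by
  rw [Matrix.l2_opNorm_diagonal]
  have := norm_le_pi_norm (fun i => (f i : ℂ)) i
  rwa [Complex.norm_real, Real.norm_eq_abs] at this

/-- one step of the recursion in diagonalised form -/
theorem diag_step {V : Op ι} (h1 : Vᴴ * V = 1) (d f g : (ι → Bool) → ℝ) :
    (2 : ℂ) • ((V * diagonal (fun i => (d i : ℂ)) * Vᴴ) * (V * diagonal (fun i => (f i : ℂ)) * Vᴴ))
        - V * diagonal (fun i => (g i : ℂ)) * Vᴴ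
      = V * diagonal (fun i => ((2 * d i * f i - g i : ℝ) : ℂ)) * Vᴴ := by
  have e1 : (V * diagonal (fun i => (d i : ℂ)) * Vᴴ) * (V * diagonal (fun i => (f i : ℂ)) * Vᴴ)
      = V * (diagonal (fun i => (d i : ℂ)) * diagonal (fun i => (f i : ℂ))) * Vᴴ := by
    calc (V * diagonal (fun i => (d i : ℂ)) * Vᴴ) * (V * diagonal (fun i => (f i : ℂ)) * Vᴴ)
        = V * diagonal (fun i => (d i : ℂ)) * (Vᴴ * V) * diagonal (fun i => (f i : ℂ)) * Vᴴ := by
          simp only [Matrix.mul_assoc]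
      _ = V * (diagonal (fun i => (d i : ℂ)) * diagonal (fun i => (f i : ℂ))) * Vᴴ := by
          rw [h1, Matrix.mul_one]; simp only [Matrix.mul_assoc]
  rw [e1, Matrix.diagonal_mul_diagonal]
  have e2 : (diagonal (fun i => ((2 * d i * f i - g i : ℝ) : ℂ)) : Op ι)
      = (2 : ℂ) • diagonal (fun i => (d i : ℂ) * (f i : ℂ)) - diagonal (fun i => (g i : ℂ)) := by
    ext x y
    by_cases hxy : x = y
    · subst hxy
      simp [Matrix.diagonal_apply_eq]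
      ring
    · simp [Matrix.diagonal_apply_ne _ hxy]
  rw [e2, Matrix.mul_sub, Matrix.sub_mul, Matrix.mul_smul, Matrix.smul_mul]

theorem chebOp_diag {V : Op ι} (h1 : Vᴴ * V = 1) (h2 : V * Vᴴ = 1) (d : (ι → Bool) → ℝ) (k : ℕ) :
    chebOp (V * diagonal (fun i => (d i : ℂ)) * Vᴴ) k
        = V * diagonal (fun i => ((cheb (d i) k : ℝ) : ℂ)) * Vᴴ ∧
      chebOp (V * diagonal (fun i => (d i : ℂ)) * Vᴴ) (k + 1)
        = V * diagonal (fun i => ((cheb (d i) (k + 1) : ℝ) : ℂ)) * Vᴴ := by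
  induction k with
  | zero =>
    constructor
    · simp [chebOp, cheb, h2]
    · simp [chebOp, cheb]
  | succ k ih =>
    refine ⟨ih.2, ?_⟩
    have : chebOp (V * diagonal (fun i => (d i : ℂ)) * Vᴴ) (k + 1 + 1)
        = (2 : ℂ) • ((V * diagonal (fun i => (d i : ℂ)) * Vᴴ)
            * chebOp (V * diagonal (fun i => (d i : ℂ)) * Vᴴ) (k + 1))
          - chebOp (V * diagonal (fun i => (d i : ℂ)) * Vᴴ) k := rfl
    rw [this, ih.1, ih.2, diag_step h1]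
    rfl

theorem chebUOp_diag {V : Op ι} (h1 : Vᴴ * V = 1) (h2 : V * Vᴴ = 1) (d : (ι → Bool) → ℝ) (k : ℕ) :
    chebUOp (V * diagonal (fun i => (d i : ℂ)) * Vᴴ) k
        = V * diagonal (fun i => ((chebU (d i) k : ℝ) : ℂ)) * Vᴴ ∧
      chebUOp (V * diagonal (fun i => (d i : ℂ)) * Vᴴ) (k + 1)
        = V * diagonal (fun i => ((chebU (d i) (k + 1) : ℝ) : ℂ)) * Vᴴ := by
  induction k with
  | zero =>
    constructor
    · simp [chebUOp, chebU, h2]
    · have e : (diagonal (fun i => ((chebU (d i) (0 + 1) : ℝ) : ℂ)) : Op ι)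
          = (2 : ℂ) • diagonal (fun i => (d i : ℂ)) := by
        ext x y
        by_cases hxy : x = y
        · subst hxy
          simp [Matrix.diagonal_apply_eq, chebU]
        · simp [Matrix.diagonal_apply_ne _ hxy]
      rw [e, Matrix.mul_smul, Matrix.smul_mul]
      rfl
  | succ k ih =>
    refine ⟨ih.2, ?_⟩
    have : chebUOp (V * diagonal (fun i => (d i : ℂ)) * Vᴴ) (k + 1 + 1)
        = (2 : ℂ) • ((V * diagonal (fun i => (d i : ℂ)) * Vᴴ)
            * chebUOp (V * diagonal (fun i => (d i : ℂ)) * Vᴴ) (k + 1))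
          - chebUOp (V * diagonal (fun i => (d i : ℂ)) * Vᴴ) k := rfl
    rw [this, ih.1, ih.2, diag_step h1]
    rfl

theorem eig_abs_le {V : Op ι} (h1 : Vᴴ * V = 1) (h2 : V * Vᴴ = 1) (d : (ι → Bool) → ℝ) {θ : ℝ}
    (hn : ‖V * diagonal (fun i => (d i : ℂ)) * Vᴴ‖ ≤ θ) (i : ι → Bool) : |d i| ≤ θ := by
  have e : (diagonal (fun i => (d i : ℂ)) : Op ι)
      = Vᴴ * (V * diagonal (fun i => (d i : ℂ)) * Vᴴ) * V := by
    calc (diagonal (fun i => (d i : ℂ)) : Op ι)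
        = (Vᴴ * V) * diagonal (fun i => (d i : ℂ)) * (Vᴴ * V) := by
          rw [h1, Matrix.one_mul, Matrix.mul_one]
      _ = Vᴴ * (V * diagonal (fun i => (d i : ℂ)) * Vᴴ) * V := by
          simp only [Matrix.mul_assoc]
  calc |d i| ≤ ‖(diagonal (fun i => (d i : ℂ)) : Op ι)‖ := abs_le_opn_diag d i
    _ = ‖Vᴴ * (V * diagonal (fun i => (d i : ℂ)) * Vᴴ) * V‖ := by rw [← e]
    _ ≤ ‖V * diagonal (fun i => (d i : ℂ)) * Vᴴ‖ := opn_conj_le' h2 _
    _ ≤ θ := hn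

/-- Plan: spectral theorem `Matrix.IsHermitian.spectral_theorem`: `A = V * diagonal d * Vᴴ` with `V`
unitary and `d` real.  By two-step induction `chebOp A k = V * diagonal (cheb (d i) k) * Vᴴ`.
`‖V * X * Vᴴ‖ ≤ ‖X‖`, `‖diagonal v‖ = ‖v‖` (sup norm, `Matrix.l2_opNorm_diagonal`), and
`|d i| ≤ ‖diagonal d‖ = ‖Vᴴ * A * V‖ ≤ ‖A‖ ≤ θ`.  Then `cheb_abs_le_gro`. -/
theorem opn_chebOp_le {A : Op ι} (hA : Aᴴ = A) {θ : ℝ} (hθ : 1 ≤ θ) (hn : ‖A‖ ≤ θ) (k : ℕ) :
    ‖chebOp A k‖ ≤ gro θ ^ k := by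
  obtain ⟨V, d, h1, h2, rfl⟩ := exists_diag hA
  rw [(chebOp_diag h1 h2 d k).1]
  refine le_trans (opn_conj_le h1 _) ?_
  have hg : 0 ≤ gro θ := le_trans zero_le_one (one_le_gro hθ)
  exact opn_diag_le (pow_nonneg hg k) fun i => cheb_abs_le_gro hθ (eig_abs_le h1 h2 d hn i) k

/-- same plan with `chebU_abs_le_gro` -/
theorem opn_chebUOp_le {A : Op ι} (hA : Aᴴ = A) {θ : ℝ} (hθ : 1 ≤ θ) (hn : ‖A‖ ≤ θ) (k : ℕ) :
    ‖chebUOp A k‖ ≤ ((k : ℝ) + 1) * gro θ ^ k := by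
  obtain ⟨V, d, h1, h2, rfl⟩ := exists_diag hA
  rw [(chebUOp_diag h1 h2 d k).1]
  refine le_trans (opn_conj_le h1 _) ?_
  have hg : 0 ≤ gro θ := le_trans zero_le_one (one_le_gro hθ)
  exact opn_diag_le (mul_nonneg (by positivity) (pow_nonneg hg k))
    fun i => chebU_abs_le_gro hθ (eig_abs_le h1 h2 d hn i) k

end Vale.Agent.Lib.P368
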