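import Vale.Agent.Lib.P368.D4.Cost
import Vale.Agent.Lib.P368.D4R.ChebOp

/-! # Chebyshev polynomials of operators: cost, Hermiticity -/

namespace Vale.Agent.Lib.P368

open Matrix Finset

set_option linter.unusedSectionVars false

variable {ι : Type} [Fintype ι] [DecidableEq ι]

theorem Cost.chebOp_pair {c : ℝ} {A : Op ι} (h : Cost c A) (k : ℕ) :
    Cost ((2 * c + 1) ^ k) (Vale.Agent.Lib.P368.chebOp A k) ∧
      Cost ((2 * c + 1) ^ (k + 1)) (Vale.Agent.Lib.P368.chebOp A (k + 1)) := by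
  have hc : 0 ≤ c := h.nonneg
  induction k with
  | zero =>
    refine ⟨?_, ?_⟩
    · simpa [Vale.Agent.Lib.P368.chebOp] using (Cost.one (ι := ι))
    · have : Cost (2 * c + 1) A := Cost.mono h (by linarith)
      simpa [Vale.Agent.Lib.P368.chebOp] using this
  | succ k ih =>
    refine ⟨ih.2, ?_⟩
    have h1 : Cost (c * (2 * c + 1) ^ (k + 1)) (A * Vale.Agent.Lib.P368.chebOp A (k + 1)) :=
      Cost.mul h ih.2
    have h2 := Cost.smul (2 : ℂ) h1
    have h3 := Cost.smul (-1 : ℂ) ih.1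
    have h4 := Cost.add h2 h3
    have e : (2 : ℂ) • (A * Vale.Agent.Lib.P368.chebOp A (k + 1))
        + (-1 : ℂ) • Vale.Agent.Lib.P368.chebOp A k
        = Vale.Agent.Lib.P368.chebOp A (k + 1 + 1) := by
      show _ = (2 : ℂ) • (A * Vale.Agent.Lib.P368.chebOp A (k + 1))
        - Vale.Agent.Lib.P368.chebOp A k
      rw [neg_one_smul, sub_eq_add_neg]
    rw [e] at h4
    refine Cost.mono h4 ?_
    have n2 : ‖(2 : ℂ)‖ = 2 := by simp
    have n1 : ‖(-1 : ℂ)‖ = 1 := by simp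
    rw [n2, n1]
    have hp : 0 ≤ (2 * c + 1) ^ k := pow_nonneg (by linarith) k
    have e1 : (2 * c + 1) ^ (k + 1) = (2 * c + 1) ^ k * (2 * c + 1) := pow_succ _ _
    have e2 : (2 * c + 1) ^ (k + 1 + 1) = (2 * c + 1) ^ k * (2 * c + 1) * (2 * c + 1) := by
      rw [pow_succ, pow_succ]
    rw [e2, e1]
    nlinarith [mul_nonneg hp hc, mul_nonneg (mul_nonneg hp hc) hc]

/-- `C = 2 c + 1`: `2 c C ^ (k+1) + C ^ k ≤ C ^ (k+2)` -/
theorem Cost.chebOp {c : ℝ} {A : Op ι} (h : Cost c A) (k : ℕ) :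
    Cost ((2 * c + 1) ^ k) (chebOp A k) :=
  (Cost.chebOp_pair h k).1

theorem chebOp_comm_pair (A : Op ι) (k : ℕ) :
    (A * chebOp A k = chebOp A k * A) ∧ (A * chebOp A (k + 1) = chebOp A (k + 1) * A) := by
  induction k with
  | zero =>
    refine ⟨?_, ?_⟩
    · simp [chebOp]
    · simp [chebOp]
  | succ k ih =>
    refine ⟨ih.2, ?_⟩
    show A * ((2 : ℂ) • (A * chebOp A (k + 1)) - chebOp A k)
      = ((2 : ℂ) • (A * chebOp A (k + 1)) - chebOp A k) * A
    rw [Matrix.mul_sub, Matrix.sub_mul, Matrix.mul_smul, Matrix.smul_mul, ih.1,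
      Matrix.mul_assoc A (chebOp A (k + 1)) A, ← ih.2]

theorem chebOp_comm (A : Op ι) (k : ℕ) : A * chebOp A k = chebOp A k * A :=
  (chebOp_comm_pair A k).1

theorem chebOp_herm_pair {A : Op ι} (hA : Aᴴ = A) (k : ℕ) :
    ((chebOp A k)ᴴ = chebOp A k) ∧ ((chebOp A (k + 1))ᴴ = chebOp A (k + 1)) := by
  induction k with
  | zero =>
    refine ⟨?_, ?_⟩
    · simp [chebOp]
    · simpa [chebOp] using hA
  | succ k ih =>
    refine ⟨ih.2, ?_⟩
    show ((2 : ℂ) • (A * chebOp A (k + 1)) - chebOp A k)ᴴ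
      = (2 : ℂ) • (A * chebOp A (k + 1)) - chebOp A k
    rw [Matrix.conjTranspose_sub, Matrix.conjTranspose_smul, Matrix.conjTranspose_mul, ih.1, ih.2,
      hA, ← chebOp_comm A (k + 1)]
    simp

/-- the Chebyshev polynomials of a Hermitian operator are Hermitian (they commute with `A`) -/
theorem chebOp_herm {A : Op ι} (hA : Aᴴ = A) (k : ℕ) : (chebOp A k)ᴴ = chebOp A k :=
  (chebOp_herm_pair hA k).1

end Vale.Agent.Lib.P368
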