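import Vale.Agent.Lib.P368.D4.OrthSum
import Vale.Agent.Lib.P368.D4.Cost
import Vale.Agent.Lib.P368.D4R.ChebOp

/-! # Chebyshev polynomials of operators: functional calculus on patterns, conjugation, cost -/

namespace Vale.Agent.Lib.P368

open Matrix Finset
open scoped Matrix.Norms.L2Operator

set_option linter.unusedSectionVars false

variable {ι : Type} [Fintype ι] [DecidableEq ι]

/-- conjugation by a unitary commutes with the Chebyshev recursion (`conjBy_mul`, `conjBy_one`,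
`conjBy_sub`, `conjBy_smul`) -/
theorem conjBy_chebOp (l : List (Finset ι × (ι → M2))) (hl : ∀ r ∈ l, ReflValid r) (X : Op ι)
    (k : ℕ) : conjBy l (chebOp X k) = chebOp (conjBy l X) k := by
  have h : ∀ k, conjBy l (chebOp X k) = chebOp (conjBy l X) k ∧
      conjBy l (chebOp X (k + 1)) = chebOp (conjBy l X) (k + 1) := by
    intro k
    induction k with
    | zero => exact ⟨conjBy_one l hl, rfl⟩
    | succ k ih =>
      refine ⟨ih.2, ?_⟩
      show conjBy l ((2 : ℂ) • (X * chebOp X (k + 1)) - chebOp X k)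
        = (2 : ℂ) • (conjBy l X * chebOp (conjBy l X) (k + 1)) - chebOp (conjBy l X) k
      rw [conjBy_sub, conjBy_smul, conjBy_mul l hl, ih.1, ih.2]
  exact (h k).1

/-- functional calculus on the orthogonal resolution `conjBy ρ (patOp B σ)`
(`patOp_idem`, `patOp_mul_ne`, `sum_patOp`, `conjBy_mul`, `conjBy_one`; first the case `ρ = []`
or directly) -/
theorem chebOp_sum_pat (ρ : List (Finset ι × (ι → M2))) (hρ : ∀ r ∈ ρ, ReflValid r)
    {B : ι → M2} (hB : SiteP B) (f : (ι → Bool) → ℝ) (k : ℕ) :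
    chebOp (∑ σ : ι → Bool, ((f σ : ℝ) : ℂ) • conjBy ρ (patOp B σ)) k
      = ∑ σ : ι → Bool, ((cheb (f σ) k : ℝ) : ℂ) • conjBy ρ (patOp B σ) := by
  have hsum : ∑ σ : ι → Bool, conjBy ρ (patOp B σ) = 1 := by
    have h1 : ∑ σ : ι → Bool, conjBy ρ (patOp B σ) = conjBy ρ (∑ σ : ι → Bool, patOp B σ) := by
      unfold conjBy
      rw [Finset.mul_sum, Finset.sum_mul]
    rw [h1, sum_patOp, conjBy_one ρ hρ]
  have hmul : ∀ a b : (ι → Bool) → ℂ,
      (∑ σ : ι → Bool, a σ • conjBy ρ (patOp B σ)) * (∑ σ : ι → Bool, b σ • conjBy ρ (patOp B σ))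
        = ∑ σ : ι → Bool, (a σ * b σ) • conjBy ρ (patOp B σ) := by
    intro a b
    rw [Finset.sum_mul_sum]
    refine Finset.sum_congr rfl fun σ _ => ?_
    rw [Finset.sum_eq_single σ]
    · rw [Matrix.smul_mul, Matrix.mul_smul, ← conjBy_mul ρ hρ, patOp_idem hB, smul_smul]
    · intro τ _ hτ
      rw [Matrix.smul_mul, Matrix.mul_smul, ← conjBy_mul ρ hρ, patOp_mul_ne hB (Ne.symm hτ)]
      simp [conjBy]
    · intro h
      exact absurd (Finset.mem_univ σ) h
  have h : ∀ k, chebOp (∑ σ : ι → Bool, ((f σ : ℝ) : ℂ) • conjBy ρ (patOp B σ)) k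
        = ∑ σ : ι → Bool, ((cheb (f σ) k : ℝ) : ℂ) • conjBy ρ (patOp B σ) ∧
      chebOp (∑ σ : ι → Bool, ((f σ : ℝ) : ℂ) • conjBy ρ (patOp B σ)) (k + 1)
        = ∑ σ : ι → Bool, ((cheb (f σ) (k + 1) : ℝ) : ℂ) • conjBy ρ (patOp B σ) := by
    intro k
    induction k with
    | zero =>
      refine ⟨?_, rfl⟩
      show (1 : Op ι) = _
      simp only [cheb_zero, Complex.ofReal_one, one_smul]
      exact hsum.symm
    | succ k ih =>
      refine ⟨ih.2, ?_⟩
      show (2 : ℂ) • ((∑ σ : ι → Bool, ((f σ : ℝ) : ℂ) • conjBy ρ (patOp B σ)) *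
          chebOp (∑ σ : ι → Bool, ((f σ : ℝ) : ℂ) • conjBy ρ (patOp B σ)) (k + 1))
          - chebOp (∑ σ : ι → Bool, ((f σ : ℝ) : ℂ) • conjBy ρ (patOp B σ)) k = _
      rw [ih.1, ih.2, hmul, Finset.smul_sum, ← Finset.sum_sub_distrib]
      refine Finset.sum_congr rfl fun σ _ => ?_
      have hc : cheb (f σ) (k + 1 + 1) = 2 * f σ * cheb (f σ) (k + 1) - cheb (f σ) k := rfl
      rw [hc, smul_smul, ← sub_smul]
      congr 1
      push_cast
      ring
  exact (h k).1

end Vale.Agent.Lib.P368
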