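import Vale.Agent.Lib.P368.D4R.ChebU

/-! # The growth rate under a small increase of the argument (scalar fact) -/

namespace Vale.Agent.Lib.P368

/-- `gro θ₀ ^ k ≤ 2 T_k(θ₀)` for `θ₀ ≥ 1`, by the closed form. -/
theorem gro_pow_le_two_cheb {x : ℝ} (hx : 1 ≤ x) (k : ℕ) : gro x ^ k ≤ 2 * cheb x k := by
  have hnn : 0 ≤ x ^ 2 - 1 := by nlinarith
  unfold gro
  set s : ℝ := Real.sqrt (x ^ 2 - 1) with hs
  have hs2 : s * s = x ^ 2 - 1 := Real.mul_self_sqrt hnn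
  have hs0 : 0 ≤ s := Real.sqrt_nonneg _
  have hsum : (x + s) + (x - s) = 2 * x := by ring
  have hprod : (x + s) * (x - s) = 1 := by
    have : (x + s) * (x - s) = x ^ 2 - s * s := by ring
    rw [this, hs2]; ring
  have hxpos : 0 < x + s := by linarith
  have hq : 0 ≤ x - s := by
    by_contra hneg0
    have hneg : x - s < 0 := not_le.mp hneg0
    have : (x + s) * (x - s) < 0 := mul_neg_of_pos_of_neg hxpos hneg
    linarith
  rw [(cheb_closed_aux hsum hprod k).1]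
  have h2 : 0 ≤ (x - s) ^ k := pow_nonneg hq k
  linarith

/-- `1 ≤ gro θ` (local copy, independent of the other leaves) -/
theorem one_le_gro_aux {θ : ℝ} (hθ : 1 ≤ θ) : 1 ≤ gro θ := by
  unfold gro
  have := Real.sqrt_nonneg (θ ^ 2 - 1)
  linarith

/-- A small increase of the argument does not change the growth much.  With `θ₀ = 1 + d`,
`θ = θ₀ + η`: `gro θ - gro θ₀ ≤ η + sqrt (θ ^ 2 - θ₀ ^ 2) ≤ η + sqrt (5 η) ≤ 4 sqrt η`, so
`gro θ ≤ gro θ₀ * (1 + 4 sqrt η)`, `(1 + 4 sqrt η) ^ k ≤ exp (4 k sqrt η) ≤ exp 1 ≤ 3`, and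
`gro θ₀ ^ k ≤ 2 * cheb θ₀ k` by the closed form `cheb_closed_aux`. -/
theorem gro_pow_le_cheb {d η : ℝ} (hd0 : 0 ≤ d) (hd1 : d ≤ 1) (hη : 0 ≤ η) (k : ℕ)
    (h : 16 * (k : ℝ) ^ 2 * η ≤ 1) : gro (1 + d + η) ^ k ≤ 6 * cheb (1 + d) k := by
  rcases Nat.eq_zero_or_pos k with rfl | hk
  · simp [cheb_zero]
  have hk1 : (1 : ℝ) ≤ (k : ℝ) := by exact_mod_cast hk
  set r : ℝ := Real.sqrt η with hr
  have hr0 : 0 ≤ r := Real.sqrt_nonneg _
  have hr2 : r * r = η := Real.mul_self_sqrt hη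
  -- `4 k r ≤ 1`
  have hkr : 4 * (k : ℝ) * r ≤ 1 := by
    have h1 : (4 * (k : ℝ) * r) ^ 2 ≤ 1 ^ 2 := by
      have : (4 * (k : ℝ) * r) ^ 2 = 16 * (k : ℝ) ^ 2 * (r * r) := by ring
      rw [this, hr2]; linarith
    exact le_of_sq_le_sq h1 (by norm_num) |> fun h => h
  have hr4 : r ≤ 1 / 4 := by nlinarith
  have hη16 : η ≤ 1 / 16 := by nlinarith
  set x0 : ℝ := 1 + d with hx0
  have hx01 : 1 ≤ x0 := by linarith
  have hx02 : x0 ≤ 2 := by linarith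
  have hnn0 : 0 ≤ x0 ^ 2 - 1 := by nlinarith
  -- the increase of the square root
  have hsq : Real.sqrt ((x0 + η) ^ 2 - 1) ≤ Real.sqrt (x0 ^ 2 - 1) + 3 * r := by
    have hs0 : 0 ≤ Real.sqrt (x0 ^ 2 - 1) := Real.sqrt_nonneg _
    have hs2 : Real.sqrt (x0 ^ 2 - 1) * Real.sqrt (x0 ^ 2 - 1) = x0 ^ 2 - 1 :=
      Real.mul_self_sqrt hnn0
    apply Real.sqrt_le_iff.mpr
    refine ⟨by positivity, ?_⟩
    have e : (Real.sqrt (x0 ^ 2 - 1) + 3 * r) ^ 2
        = (x0 ^ 2 - 1) + 6 * r * Real.sqrt (x0 ^ 2 - 1) + 9 * η := by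
      have e1 : (Real.sqrt (x0 ^ 2 - 1) + 3 * r) ^ 2
          = Real.sqrt (x0 ^ 2 - 1) * Real.sqrt (x0 ^ 2 - 1)
            + 6 * r * Real.sqrt (x0 ^ 2 - 1) + 9 * (r * r) := by ring
      rw [e1, hs2, hr2]
    rw [e]
    have : 0 ≤ 6 * r * Real.sqrt (x0 ^ 2 - 1) := by positivity
    nlinarith
  have hg0 : 1 ≤ gro x0 := one_le_gro_aux hx01
  have hgle : gro (x0 + η) ≤ gro x0 * (1 + 4 * r) := by
    have h1 : gro (x0 + η) ≤ gro x0 + 4 * r := by
      unfold gro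
      have : η ≤ r := by nlinarith
      linarith
    nlinarith
  have hgnn : 0 ≤ gro (x0 + η) := by
    have := one_le_gro_aux (θ := x0 + η) (by linarith)
    linarith
  have hpow : (1 + 4 * r) ^ k ≤ 3 := by
    have h1 : 1 + 4 * r ≤ Real.exp (4 * r) := by
      have := Real.add_one_le_exp (4 * r); linarith
    have h2 : (1 + 4 * r) ^ k ≤ Real.exp (4 * r) ^ k :=
      pow_le_pow_left₀ (by positivity) h1 k
    have h3 : Real.exp (4 * r) ^ k = Real.exp ((k : ℝ) * (4 * r)) := by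
      rw [← Real.exp_nat_mul]
    have h4 : Real.exp ((k : ℝ) * (4 * r)) ≤ Real.exp 1 :=
      Real.exp_le_exp.mpr (by linarith)
    have h5 : Real.exp 1 ≤ 3 := by
      have := Real.exp_one_lt_d9; linarith
    linarith [h2, h3.le, h4, h5]
  calc gro (x0 + η) ^ k ≤ (gro x0 * (1 + 4 * r)) ^ k := pow_le_pow_left₀ hgnn hgle k
    _ = gro x0 ^ k * (1 + 4 * r) ^ k := by rw [mul_pow]
    _ ≤ gro x0 ^ k * 3 := by
        apply mul_le_mul_of_nonneg_left hpow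
        exact pow_nonneg (by linarith) k
    _ ≤ (2 * cheb x0 k) * 3 := by
        apply mul_le_mul_of_nonneg_right (gro_pow_le_two_cheb hx01 k) (by norm_num)
    _ = 6 * cheb x0 k := by ring

end Vale.Agent.Lib.P368
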