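import Vale.Agent.Lib.P368.D4.Apx

/-! # Hermitian approximants -/

namespace Vale.Agent.Lib.P368

open Matrix Finset
open scoped Matrix.Norms.L2Operator

set_option linter.unusedSectionVars false

variable {ι : Type} [Fintype ι] [DecidableEq ι]

/-- `(ketbra x y)ᴴ = ketbra y x` -/
theorem K1.adj {X : M2} (h : K1 X) : K1 Xᴴ := by
  obtain ⟨x, y, hx, hy, rfl⟩ := h
  refine ⟨y, x, hy, hx, ?_⟩
  ext b c
  simp only [Matrix.conjTranspose_apply, ketbra_apply, star_mul', star_star]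
  ring

theorem Site1.adj {B : ι → M2} (hB : Site1 B) : Site1 (fun j => (B j)ᴴ) := by
  intro j
  rcases hB j with h | h
  · left
    simp only [h, Matrix.conjTranspose_one]
  · exact Or.inr h.adj

/-- induction; `prodOp_conjTranspose`, `Site1.adj`, `Matrix.conjTranspose_smul`, `norm_star` -/
theorem Cost.adj {c : ℝ} {Z : Op ι} (h : Cost c Z) : Cost c Zᴴ := by
  induction h with
  | base B hB =>
    rw [prodOp_conjTranspose]
    exact Cost.base _ hB.adj
  | add _ _ ih ih' =>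
    rw [Matrix.conjTranspose_add]
    exact Cost.add ih ih'
  | smul a _ ih =>
    rw [Matrix.conjTranspose_smul, ← norm_star a]
    exact Cost.smul (star a) ih
  | mono _ hc ih => exact Cost.mono ih hc

theorem conjBy_conjTranspose (l : List (Finset ι × (ι → M2))) (Y : Op ι) :
    (conjBy l Y)ᴴ = conjBy l Yᴴ := by
  simp only [conjBy, Matrix.conjTranspose_mul, Matrix.conjTranspose_conjTranspose,
    Matrix.mul_assoc]

/-- replace `Z` by `(1 / 2) • (Z + Zᴴ)`; `‖Xᴴ‖ = ‖X‖` (`Matrix.l2_opNorm_conjTranspose`) -/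
theorem Apx.herm {σ : List (Finset ι × (ι → M2))} {e c : ℝ} {Y : Op ι} (h : Apx σ e c Y)
    (hY : Yᴴ = Y) : ∃ Z : Op ι, Zᴴ = Z ∧ ‖conjBy σ Y - Z‖ ≤ e - 1 ∧ Cost c Z := by
  obtain ⟨Z, hZ, hc⟩ := h
  have hhalf : ‖(1 / 2 : ℂ)‖ = 1 / 2 := by simp
  refine ⟨(1 / 2 : ℂ) • (Z + Zᴴ), ?_, ?_, ?_⟩
  · rw [Matrix.conjTranspose_smul, Matrix.conjTranspose_add, Matrix.conjTranspose_conjTranspose,
      add_comm Zᴴ Z]
    congr 1
    simp
  · have hadj : (conjBy σ Y - Z)ᴴ = conjBy σ Y - Zᴴ := by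
      rw [Matrix.conjTranspose_sub, conjBy_conjTranspose, hY]
    have h2 : ‖conjBy σ Y - Zᴴ‖ ≤ e - 1 := by
      rw [← hadj, Matrix.l2_opNorm_conjTranspose]
      exact hZ
    have hsplit : conjBy σ Y - (1 / 2 : ℂ) • (Z + Zᴴ)
        = (1 / 2 : ℂ) • ((conjBy σ Y - Z) + (conjBy σ Y - Zᴴ)) := by
      module
    rw [hsplit, norm_smul, hhalf]
    have h3 := norm_add_le (conjBy σ Y - Z) (conjBy σ Y - Zᴴ)
    linarith
  · have h1 := Cost.smul (1 / 2 : ℂ) (Cost.add hc hc.adj)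
    rw [hhalf] at h1
    exact Cost.mono h1 (by linarith)

end Vale.Agent.Lib.P368
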