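import Vale.Agent.Lib.P368.D4R.PerturbF

/-! # Chebyshev polynomials of two nearby Hermitian operators -/

namespace Vale.Agent.Lib.P368

open Matrix Finset
open scoped Matrix.Norms.L2Operator

set_option linter.unusedSectionVars false

variable {ι : Type} [Fintype ι] [DecidableEq ι]

theorem sum_range_sub_aux (c : ℝ) (n : ℕ) :
    ∑ j ∈ Finset.range n, (c - (j : ℝ)) = (n : ℝ) * c - (n : ℝ) * ((n : ℝ) - 1) / 2 := by
  induction n with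
  | zero => simp
  | succ n ih =>
    rw [Finset.sum_range_succ, ih]
    push_cast
    ring

/-- `‖T_k(A) - T_k(B)‖ ≤ k ^ 2 ‖A - B‖ g ^ k`: from the formula, `opn_chebUOp_le`, `opn_chebOp_le`:
`(k+1) g ^ k + 2 ∑_{j<k} (k - j) g ^ (k-1-j) g ^ (j+1) = ((k+1) + k (k+1)) g ^ k = (k+1) ^ 2 g ^ k`,
and `1 ≤ g` -/
theorem opn_chebOp_sub_le {A B : Op ι} (hA : Aᴴ = A) (hB : Bᴴ = B) {θ : ℝ} (hθ : 1 ≤ θ)
    (hnA : ‖A‖ ≤ θ) (hnB : ‖B‖ ≤ θ) (k : ℕ) :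
    ‖chebOp A k - chebOp B k‖ ≤ (k : ℝ) ^ 2 * ‖A - B‖ * gro θ ^ k := by
  rcases k with _ | n
  · simp [chebOp]
  have hg1 : 1 ≤ gro θ := one_le_gro hθ
  have hg0 : 0 ≤ gro θ := le_trans zero_le_one hg1
  set g : ℝ := gro θ with hg
  set D : ℝ := ‖A - B‖ with hD
  have hD0 : 0 ≤ D := norm_nonneg _
  have hgn : 0 ≤ g ^ n := pow_nonneg hg0 n
  rw [chebOp_sub_formula]
  have h1 : ‖chebUOp A n * (A - B)‖ ≤ ((n : ℝ) + 1) * g ^ n * D :=
    (norm_mul_le _ _).trans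
      (mul_le_mul_of_nonneg_right (opn_chebUOp_le hA hθ hnA n) hD0)
  have hterm : ∀ j ∈ Finset.range n,
      ‖chebUOp A (n - 1 - j) * (A - B) * chebOp B (j + 1)‖ ≤ ((n : ℝ) - (j : ℝ)) * (D * g ^ n) := by
    intro j hj
    have hjn : j < n := Finset.mem_range.1 hj
    have hU := opn_chebUOp_le hA hθ hnA (n - 1 - j)
    have hT := opn_chebOp_le hB hθ hnB (j + 1)
    have hcast : ((n - 1 - j : ℕ) : ℝ) + 1 = (n : ℝ) - (j : ℝ) := by
      have h : n - 1 - j + 1 + j = n := by omega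
      have h' : ((n - 1 - j : ℕ) : ℝ) + 1 + (j : ℝ) = (n : ℝ) := by exact_mod_cast h
      linarith
    rw [hcast] at hU
    have hnj : 0 ≤ (n : ℝ) - (j : ℝ) := by
      have : (j : ℝ) ≤ (n : ℝ) := by exact_mod_cast hjn.le
      linarith
    have hpow : g ^ (n - 1 - j) * g ^ (j + 1) = g ^ n := by
      rw [← pow_add]
      congr 1
      omega
    have hU0 : 0 ≤ ((n : ℝ) - (j : ℝ)) * g ^ (n - 1 - j) := mul_nonneg hnj (pow_nonneg hg0 _)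
    calc ‖chebUOp A (n - 1 - j) * (A - B) * chebOp B (j + 1)‖
        ≤ ‖chebUOp A (n - 1 - j) * (A - B)‖ * ‖chebOp B (j + 1)‖ := norm_mul_le _ _
      _ ≤ (‖chebUOp A (n - 1 - j)‖ * D) * ‖chebOp B (j + 1)‖ :=
          mul_le_mul_of_nonneg_right (norm_mul_le _ _) (norm_nonneg _)
      _ ≤ ((((n : ℝ) - (j : ℝ)) * g ^ (n - 1 - j)) * D) * g ^ (j + 1) :=
          mul_le_mul (mul_le_mul_of_nonneg_right hU hD0) hT (norm_nonneg _)
            (mul_nonneg hU0 hD0)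
      _ = ((n : ℝ) - (j : ℝ)) * (D * (g ^ (n - 1 - j) * g ^ (j + 1))) := by ring
      _ = ((n : ℝ) - (j : ℝ)) * (D * g ^ n) := by rw [hpow]
  have h2 : ‖∑ j ∈ Finset.range n, chebUOp A (n - 1 - j) * (A - B) * chebOp B (j + 1)‖
      ≤ ((n : ℝ) * (n : ℝ) - (n : ℝ) * ((n : ℝ) - 1) / 2) * (D * g ^ n) := by
    calc ‖∑ j ∈ Finset.range n, chebUOp A (n - 1 - j) * (A - B) * chebOp B (j + 1)‖
        ≤ ∑ j ∈ Finset.range n, ‖chebUOp A (n - 1 - j) * (A - B) * chebOp B (j + 1)‖ :=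
          norm_sum_le _ _
      _ ≤ ∑ j ∈ Finset.range n, ((n : ℝ) - (j : ℝ)) * (D * g ^ n) := Finset.sum_le_sum hterm
      _ = ((n : ℝ) * (n : ℝ) - (n : ℝ) * ((n : ℝ) - 1) / 2) * (D * g ^ n) := by
          rw [← Finset.sum_mul, sum_range_sub_aux]
  have h3 : ‖(2 : ℂ) • ∑ j ∈ Finset.range n, chebUOp A (n - 1 - j) * (A - B) * chebOp B (j + 1)‖
      ≤ 2 * (((n : ℝ) * (n : ℝ) - (n : ℝ) * ((n : ℝ) - 1) / 2) * (D * g ^ n)) := by
    rw [norm_smul]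
    have e : ‖(2 : ℂ)‖ = 2 := by simp
    rw [e]
    exact mul_le_mul_of_nonneg_left h2 (by norm_num)
  have hgs : g ^ n ≤ g ^ (n + 1) := pow_le_pow_right₀ hg1 (Nat.le_succ n)
  calc ‖chebUOp A n * (A - B)
        + (2 : ℂ) • ∑ j ∈ Finset.range n, chebUOp A (n - 1 - j) * (A - B) * chebOp B (j + 1)‖
      ≤ ((n : ℝ) + 1) * g ^ n * D
        + 2 * (((n : ℝ) * (n : ℝ) - (n : ℝ) * ((n : ℝ) - 1) / 2) * (D * g ^ n)) :=
        (norm_add_le _ _).trans (add_le_add h1 h3)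
    _ = ((n : ℝ) + 1) ^ 2 * D * g ^ n := by ring
    _ ≤ ((n : ℝ) + 1) ^ 2 * D * g ^ (n + 1) :=
        mul_le_mul_of_nonneg_left hgs (mul_nonneg (by positivity) hD0)
    _ = ((n + 1 : ℕ) : ℝ) ^ 2 * D * g ^ (n + 1) := by push_cast; ring

end Vale.Agent.Lib.P368
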