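import Vale.Agent.Lib.P368.D4R.ClassExact
import Vale.Agent.Lib.P368.D4R.Herm
import Vale.Agent.Lib.P368.D4R.Perturb
import Vale.Agent.Lib.P368.D4R.GroPow

/-! # A layer of at most `M` gates above a stack: the robust polynomial method -/

namespace Vale.Agent.Lib.P368

open Matrix Finset
open scoped Matrix.Norms.L2Operator

set_option linter.unusedSectionVars false

variable {ι : Type} [Fintype ι] [DecidableEq ι]

/-- the scalar estimate `1 / t ≤ 2 / 2 ^ L` -/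
theorem class_apx_scalar (m M : ℕ) (hm1 : 1 ≤ m) (hmM : m ≤ M) (L k : ℕ)
    (hk : k = (Nat.sqrt M + 1) * L) :
    1 / cheb (1 + 1 / (m : ℝ)) k ≤ 2 / 2 ^ L := by
  have hmr : (0 : ℝ) < (m : ℝ) := by exact_mod_cast hm1
  have hlow := cheb_lower (d := 1 / (m : ℝ)) (by positivity) k
  have hg := growth_two M L
  rw [← hk] at hg
  have hM1 : (1 : ℝ) ≤ (M : ℝ) := by exact_mod_cast hm1.trans hmM
  have hmax : max 1 (M : ℝ) = (M : ℝ) := max_eq_right hM1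
  rw [hmax] at hg
  have hmono : (1 + Real.sqrt (2 / (M : ℝ))) ^ k
      ≤ (1 + Real.sqrt (2 * (1 / (m : ℝ)))) ^ k := by
    have h1 : 2 / (M : ℝ) ≤ 2 * (1 / (m : ℝ)) := by
      rw [mul_one_div]
      exact div_le_div_of_nonneg_left (by norm_num) hmr (by exact_mod_cast hmM)
    have h2 := Real.sqrt_le_sqrt h1
    exact pow_le_pow_left₀ (by positivity) (by linarith) k
  have h2L : (0 : ℝ) < 2 ^ L := by positivity
  have ht : (2 : ℝ) ^ L / 2 ≤ cheb (1 + 1 / (m : ℝ)) k := by linarith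
  have ht0 : 0 < cheb (1 + 1 / (m : ℝ)) k := by linarith [half_pos h2L]
  rw [div_le_div_iff₀ ht0 h2L]
  linarith

theorem Cost.zero_apx : Cost 0 (0 : Op ι) := by
  have h := Cost.smul (0 : ℂ) (Cost.one : Cost 1 (1 : Op ι))
  simpa using h

theorem Cost.finsum_apx {κ : Type} (s : Finset κ) (F : κ → Op ι) (c : ℝ)
    (h : ∀ x ∈ s, Cost c (F x)) : Cost ((s.card : ℝ) * c) (∑ x ∈ s, F x) := by
  classical
  induction s using Finset.induction_on with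
  | empty => simpa using (Cost.zero_apx : Cost 0 (0 : Op ι))
  | insert a s ha ih =>
    rw [Finset.sum_insert ha, Finset.card_insert_of_notMem ha]
    have h1 := Cost.add (h a (Finset.mem_insert_self a s))
      (ih fun x hx => h x (Finset.mem_insert_of_mem hx))
    refine Cost.mono h1 (le_of_eq ?_)
    push_cast
    ring

/-- the operator part of the robust polynomial method -/
theorem class_apx_core (σ : List (Finset ι × (ι → M2))) (hσ : ∀ r ∈ σ, ReflValid r)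
    (X A A' : Op ι) (d η c : ℝ) (k : ℕ) (hA : Aᴴ = A) (hA' : A'ᴴ = A')
    (hnA : ‖A‖ ≤ 1 + d) (hd0 : 0 ≤ d) (hd1 : d ≤ 1) (hη : 0 ≤ η)
    (hdiff : ‖conjBy σ A - A'‖ ≤ η)
    (hX : ‖X - ((1 / cheb (1 + d) k : ℝ) : ℂ) • chebOp A k‖ ≤ 1 / cheb (1 + d) k)
    (hcost : Cost c A') (hsmall : 16 * (k : ℝ) ^ 2 * η ≤ 1) :
    ∃ Z : Op ι, ‖conjBy σ X - Z‖ ≤ 1 / cheb (1 + d) k + 6 * (k : ℝ) ^ 2 * η ∧
      Cost ((2 * c + 1) ^ k) Z := by
  set t : ℝ := cheb (1 + d) k with ht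
  have ht1 : 1 ≤ t := (cheb_ge_one_aux (by linarith : (1 : ℝ) ≤ 1 + d) k).1
  have ht0 : 0 < t := by linarith
  have h1t0 : 0 ≤ 1 / t := by positivity
  have hnorm : ‖((1 / t : ℝ) : ℂ)‖ = 1 / t := by
    rw [Complex.norm_real, Real.norm_eq_abs, abs_of_nonneg h1t0]
  refine ⟨((1 / t : ℝ) : ℂ) • chebOp A' k, ?_, ?_⟩
  · have hsplit : conjBy σ X - ((1 / t : ℝ) : ℂ) • chebOp A' k
        = conjBy σ (X - ((1 / t : ℝ) : ℂ) • chebOp A k)
          + ((1 / t : ℝ) : ℂ) • (chebOp (conjBy σ A) k - chebOp A' k) := by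
      rw [conjBy_sub, conjBy_smul, conjBy_chebOp σ hσ, smul_sub]
      abel
    have h1 : ‖conjBy σ (X - ((1 / t : ℝ) : ℂ) • chebOp A k)‖ ≤ 1 / t :=
      (opn_conjBy_le σ hσ _).trans hX
    have hcA : (conjBy σ A)ᴴ = conjBy σ A := by rw [conjBy_conjTranspose, hA]
    have hncA : ‖conjBy σ A‖ ≤ 1 + d + η := by
      have := opn_conjBy_le σ hσ A
      linarith
    have hnA' : ‖A'‖ ≤ 1 + d + η := by
      have h3 : A' = conjBy σ A - (conjBy σ A - A') := by abel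
      have h4 : ‖A'‖ ≤ ‖conjBy σ A‖ + ‖conjBy σ A - A'‖ := by
        calc ‖A'‖ = ‖conjBy σ A - (conjBy σ A - A')‖ := by rw [← h3]
          _ ≤ ‖conjBy σ A‖ + ‖conjBy σ A - A'‖ := norm_sub_le _ _
      have := opn_conjBy_le σ hσ A
      linarith
    have h2 := opn_chebOp_sub_le hcA hA' (by linarith : (1 : ℝ) ≤ 1 + d + η) hncA hnA' k
    have h3 := gro_pow_le_cheb hd0 hd1 hη k hsmall
    rw [← ht] at h3
    have hk2 : (0 : ℝ) ≤ (k : ℝ) ^ 2 := by positivity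
    have hg0 : 0 ≤ gro (1 + d + η) ^ k :=
      pow_nonneg (le_trans zero_le_one (one_le_gro_aux (by linarith))) k
    have h4 : ‖chebOp (conjBy σ A) k - chebOp A' k‖ ≤ (k : ℝ) ^ 2 * η * (6 * t) := by
      refine h2.trans ?_
      have h5 : (k : ℝ) ^ 2 * ‖conjBy σ A - A'‖ ≤ (k : ℝ) ^ 2 * η :=
        mul_le_mul_of_nonneg_left hdiff hk2
      exact mul_le_mul h5 h3 hg0 (mul_nonneg hk2 hη)
    have h5 : ‖((1 / t : ℝ) : ℂ) • (chebOp (conjBy σ A) k - chebOp A' k)‖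
        ≤ 6 * (k : ℝ) ^ 2 * η := by
      rw [norm_smul, hnorm]
      calc 1 / t * ‖chebOp (conjBy σ A) k - chebOp A' k‖
          ≤ 1 / t * ((k : ℝ) ^ 2 * η * (6 * t)) := mul_le_mul_of_nonneg_left h4 h1t0
        _ = 6 * (k : ℝ) ^ 2 * η := by
          field_simp
    rw [hsplit]
    exact (norm_add_le _ _).trans (add_le_add h1 h5)
  · have h1 := Cost.smul ((1 / t : ℝ) : ℂ) (Cost.chebOp hcost k)
    rw [hnorm] at h1
    refine Cost.mono h1 ?_
    have h2 : 1 / t ≤ 1 := by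
      rw [div_le_one ht0]
      exact ht1
    have h3 : (0 : ℝ) ≤ (2 * c + 1) ^ k := (Cost.chebOp hcost k).nonneg
    calc 1 / t * (2 * c + 1) ^ k ≤ 1 * (2 * c + 1) ^ k := mul_le_mul_of_nonneg_right h2 h3
      _ = (2 * c + 1) ^ k := one_mul _

/-- the perturbed affine function of the gates -/
theorem class_apx_ell (σ : List (Finset ι × (ι → M2))) (hσ : ∀ r ∈ σ, ReflValid r)
    (G : Finset (Finset ι × (ι → M2))) (hG : G.Nonempty)
    (W E : Finset ι × (ι → M2) → Op ι) (ηE cE : ℝ) (hη0 : 0 ≤ ηE) (hc : 1 ≤ cE)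
    (hEh : ∀ r ∈ G, (E r)ᴴ = E r) (hEn : ∀ r ∈ G, ‖conjBy σ (W r) - E r‖ ≤ ηE)
    (hEc : ∀ r ∈ G, Cost cE (E r)) :
    ∃ A' : Op ι, A'ᴴ = A' ∧
      ‖conjBy σ (((2 / (G.card : ℝ) : ℝ) : ℂ) • ∑ r ∈ G, W r
        - ((((G.card : ℝ) - 1) / (G.card : ℝ) : ℝ) : ℂ) • (1 : Op ι)) - A'‖ ≤ 2 * ηE ∧
      Cost (2 * cE + 1) A' := by
  have hm1 : 1 ≤ G.card := Finset.card_pos.2 hG
  have hmr1 : (1 : ℝ) ≤ (G.card : ℝ) := by exact_mod_cast hm1
  have hmr : (0 : ℝ) < (G.card : ℝ) := by linarith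
  set m : ℝ := (G.card : ℝ) with hm
  have ha0 : 0 ≤ 2 / m := by positivity
  have hb0 : 0 ≤ (m - 1) / m := div_nonneg (by linarith) hmr.le
  have hna : ‖((2 / m : ℝ) : ℂ)‖ = 2 / m := by
    rw [Complex.norm_real, Real.norm_eq_abs, abs_of_nonneg ha0]
  have hnb : ‖-(((m - 1) / m : ℝ) : ℂ)‖ = (m - 1) / m := by
    rw [norm_neg, Complex.norm_real, Real.norm_eq_abs, abs_of_nonneg hb0]
  refine ⟨((2 / m : ℝ) : ℂ) • ∑ r ∈ G, E r + (-(((m - 1) / m : ℝ) : ℂ)) • (1 : Op ι),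
    ?_, ?_, ?_⟩
  · rw [Matrix.conjTranspose_add, Matrix.conjTranspose_smul, Matrix.conjTranspose_smul,
      Matrix.conjTranspose_one, Matrix.conjTranspose_sum, Finset.sum_congr rfl hEh]
    simp
  · have hsplit : conjBy σ (((2 / m : ℝ) : ℂ) • ∑ r ∈ G, W r
        - (((m - 1) / m : ℝ) : ℂ) • (1 : Op ι))
        - (((2 / m : ℝ) : ℂ) • ∑ r ∈ G, E r + (-(((m - 1) / m : ℝ) : ℂ)) • (1 : Op ι))
        = ((2 / m : ℝ) : ℂ) • ∑ r ∈ G, (conjBy σ (W r) - E r) := by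
      rw [conjBy_sub, conjBy_smul, conjBy_smul, conjBy_one σ hσ, conjBy_finsum,
        Finset.sum_sub_distrib, smul_sub, neg_smul]
      abel
    rw [hsplit, norm_smul, hna]
    have h1 : ‖∑ r ∈ G, (conjBy σ (W r) - E r)‖ ≤ m * ηE := by
      refine (norm_sum_le _ _).trans ?_
      have h2 := Finset.sum_le_sum hEn
      rw [Finset.sum_const, nsmul_eq_mul] at h2
      exact h2
    calc 2 / m * ‖∑ r ∈ G, (conjBy σ (W r) - E r)‖ ≤ 2 / m * (m * ηE) :=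
          mul_le_mul_of_nonneg_left h1 ha0
      _ = 2 * ηE := by field_simp
  · have h1 := Cost.add (Cost.smul ((2 / m : ℝ) : ℂ) (Cost.finsum_apx G E cE hEc))
      (Cost.smul (-(((m - 1) / m : ℝ) : ℂ)) (Cost.one : Cost 1 (1 : Op ι)))
    rw [hna, hnb] at h1
    refine Cost.mono h1 ?_
    have h2 : 2 / m * (m * cE) = 2 * cE := by field_simp
    have h3 : (m - 1) / m ≤ 1 := by
      rw [div_le_one hmr]
      linarith
    rw [← hm, h2]
    linarith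

/-- The robust polynomial method.  If `ρa = []` then `B = 1` and the operator is `1`.
Otherwise `G = ρa.toFinset`, `m = |G| ≤ M`, `t = cheb (1 + 1 / m) k`, `ℓ = ellOp ρa B G`.
For `r ∈ G`: `conjBy ρa (prodOp (restr B r.1)) = reflOp r * prodOp (restr B r.1) * reflOp r`
(`conjBy_gate`), Hermitian; `Apx.herm` gives a Hermitian `E r` of cost `cE` within `ηE` of its
conjugate by `σ`.  Put `ℓ' = (2 / m) • ∑ r ∈ G, E r - ((m - 1) / m) • 1`: Hermitian, cost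
`≤ 2 cE + 1`, `‖conjBy σ ℓ - ℓ'‖ ≤ 2 ηE`, both of norm `≤ θ = 1 + 1 / m + 2 ηE`.
`Z = (1 / t) • chebOp ℓ' k` has cost `≤ (2 (2 cE + 1) + 1) ^ k` (`Cost.chebOp`, `1 ≤ t`).
`‖conjBy σ (conjBy ρa (prodOp B)) - Z‖ ≤ ‖conjBy σ (conjBy ρa (prodOp B) - (1 / t) • chebOp ℓ k)‖
 + (1 / t) ‖chebOp (conjBy σ ℓ) k - chebOp ℓ' k‖ ≤ 1 / t + (1 / t) k ^ 2 (2 ηE) gro θ ^ k`
(`class_exact`, `opn_conjBy_le`, `conjBy_chebOp`, `opn_chebOp_sub_le`), `gro θ ^ k ≤ 6 t`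
(`gro_pow_le_cheb` with `d = 1 / m`, `η = 2 ηE`), and `1 / t ≤ 2 / 2 ^ L` (`cheb_lower`,
`growth_two`, monotonicity in `m ≤ M` as at the end of `layer_lemma`). -/
theorem class_apx (σ : List (Finset ι × (ι → M2))) (hσ : ∀ r ∈ σ, ReflValid r)
    (ρa : List (Finset ι × (ι → M2))) (hρa : rlistValid ρa) (B : ι → M2) (hB : SiteP B)
    (hBS : ∀ j, j ∉ suppUnion ρa → B j = 1) (ηE cE : ℝ) (hη0 : 0 ≤ ηE) (hc : 1 ≤ cE)
    (hE : ∀ r ∈ ρa, Apx σ (1 + ηE) cE (reflOp r * prodOp (restr B r.1) * reflOp r))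
    (M : ℕ) (hM : ρa.length ≤ M) (L k : ℕ) (hk : k = (Nat.sqrt M + 1) * L)
    (hsmall : 32 * (k : ℝ) ^ 2 * ηE ≤ 1) :
    Apx σ (1 + 2 / 2 ^ L + 12 * (k : ℝ) ^ 2 * ηE) ((4 * cE + 3) ^ k)
      (conjBy ρa (prodOp B)) := by
  classical
  have hk2 : (0 : ℝ) ≤ (k : ℝ) ^ 2 := by positivity
  have h2L : (0 : ℝ) < 2 ^ L := by positivity
  by_cases hnil : ρa = []
  · subst hnil
    have hB1 : B = fun _ => (1 : M2) := by
      funext j
      exact hBS j (by simp [suppUnion])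
    refine ⟨1, ?_, Cost.mono Cost.one (one_le_pow₀ (by linarith))⟩
    rw [hB1, prodOp_one, conjBy_nil, conjBy_one σ hσ, sub_self, norm_zero]
    have h1 : (0 : ℝ) ≤ 2 / 2 ^ L := by positivity
    have h2 : (0 : ℝ) ≤ 12 * (k : ℝ) ^ 2 * ηE := by positivity
    linarith
  set G : Finset (Finset ι × (ι → M2)) := ρa.toFinset with hGdef
  have hG : G.Nonempty := by
    obtain ⟨r, hr⟩ := List.exists_mem_of_ne_nil ρa hnil
    exact ⟨r, List.mem_toFinset.2 hr⟩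
  have hGmem : ∀ r ∈ G, r ∈ ρa := fun r hr => List.mem_toFinset.1 hr
  have hm1 : 1 ≤ G.card := Finset.card_pos.2 hG
  have hmM : G.card ≤ M := (List.toFinset_card_le ρa).trans hM
  have hmr1 : (1 : ℝ) ≤ (G.card : ℝ) := by exact_mod_cast hm1
  have hBS' : ∀ j, (∀ r ∈ G, j ∉ r.1) → B j = 1 := by
    intro j hj
    apply hBS j
    rw [mem_suppUnion]
    rintro ⟨r, hr, hjr⟩
    exact hj r (List.mem_toFinset.2 hr) hjr
  obtain ⟨hAh, hAn, hAX⟩ := class_exact ρa hρa.1 B hB G hG hBS' k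
  -- the gates
  have hgate : ∀ r ∈ G, conjBy ρa (prodOp (restr B r.1))
      = reflOp r * prodOp (restr B r.1) * reflOp r := by
    intro r hr
    refine conjBy_gate ρa hρa r (hGmem r hr) (restr B r.1) ?_
    intro j hj
    simp [restr, hj]
  have hherm : ∀ r ∈ G, (reflOp r * prodOp (restr B r.1) * reflOp r)ᴴ
      = reflOp r * prodOp (restr B r.1) * reflOp r := by
    intro r hr
    have h1 : (prodOp (restr B r.1))ᴴ = prodOp (restr B r.1) := by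
      rw [prodOp_conjTranspose]
      congr 1
      funext j
      exact (hB.restr r.1).herm j
    rw [Matrix.conjTranspose_mul, Matrix.conjTranspose_mul, h1,
      reflOp_herm (hρa.1 r (hGmem r hr)), Matrix.mul_assoc]
  have hex : ∀ r : Finset ι × (ι → M2), ∃ Z : Op ι, r ∈ G →
      (Zᴴ = Z ∧ ‖conjBy σ (conjBy ρa (prodOp (restr B r.1))) - Z‖ ≤ ηE ∧ Cost cE Z) := by
    intro r
    by_cases hr : r ∈ G
    · obtain ⟨Z, h1, h2, h3⟩ := Apx.herm (hE r (hGmem r hr)) (hherm r hr)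
      refine ⟨Z, fun _ => ⟨h1, ?_, h3⟩⟩
      rw [hgate r hr]
      linarith
    · exact ⟨0, fun h => absurd h hr⟩
  choose E hEE using hex
  obtain ⟨A', hA'h, hA'n, hA'c⟩ := class_apx_ell σ hσ G hG
    (fun r => conjBy ρa (prodOp (restr B r.1))) E ηE cE hη0 hc
    (fun r hr => (hEE r hr).1) (fun r hr => (hEE r hr).2.1) (fun r hr => (hEE r hr).2.2)
  have hd0 : (0 : ℝ) ≤ 1 / (G.card : ℝ) := by positivity
  have hd1 : 1 / (G.card : ℝ) ≤ 1 := by
    rw [div_le_one (by linarith)]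
    exact hmr1
  obtain ⟨Z, hZn, hZc⟩ := class_apx_core σ hσ (conjBy ρa (prodOp B)) (ellOp ρa B G) A'
    (1 / (G.card : ℝ)) (2 * ηE) (2 * cE + 1) k hAh hA'h hAn hd0 hd1 (by linarith) hA'n hAX hA'c
    (by linarith)
  refine ⟨Z, ?_, ?_⟩
  · have h1 := class_apx_scalar G.card M hm1 hmM L k hk
    linarith
  · have h2 : 2 * (2 * cE + 1) + 1 = 4 * cE + 3 := by ring
    rw [h2] at hZc
    exact hZc

end Vale.Agent.Lib.P368
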