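import Vale.Agent.Lib.P368.D4R.ClassForm

/-! # A layer of gates: the exact part of the polynomial method -/

namespace Vale.Agent.Lib.P368

open Matrix Finset
open scoped Matrix.Norms.L2Operator

set_option linter.unusedSectionVars false

variable {ι : Type} [Fintype ι] [DecidableEq ι]

/-- The exact part of the polynomial method.  With `w σ = conjBy ρa (patOp B σ)`:
`ellOp = ∑ ell σ • w σ` (`ellOp_eq`), Hermitian (`patOp_herm`, real coefficients; or directly),
`|ell σ| ≤ 1 + 1 / |G|` (`ell_all_pass`, `ell_abs_le`) and `opn_sum_pat_le`;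
`chebOp ellOp k = ∑ cheb (ell σ) k • w σ` (`chebOp_sum_pat`);
`conjBy ρa (prodOp B) = ∑ [all gates of G pass on σ] • w σ` (`sum_ind_pat_op` with
`A = G.biUnion (fun r => r.1)`, and `hBS`); the coefficients of the difference are `0` if all pass and
at most `1 / t` otherwise (`cheb_abs_le_one`), as in the proof of `layer_lemma` (`D4/Layer.lean`). -/
theorem class_exact (ρa : List (Finset ι × (ι → M2))) (hρa : ∀ r ∈ ρa, ReflValid r) (B : ι → M2)
    (hB : SiteP B) (G : Finset (Finset ι × (ι → M2))) (hG : G.Nonempty)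
    (hBS : ∀ j, (∀ r ∈ G, j ∉ r.1) → B j = 1) (k : ℕ) :
    (ellOp ρa B G)ᴴ = ellOp ρa B G ∧ ‖ellOp ρa B G‖ ≤ 1 + 1 / (G.card : ℝ) ∧
      ‖conjBy ρa (prodOp B)
        - ((1 / cheb (1 + 1 / (G.card : ℝ)) k : ℝ) : ℂ) • chebOp (ellOp ρa B G) k‖
        ≤ 1 / cheb (1 + 1 / (G.card : ℝ)) k := by
  classical
  have hM : 0 < G.card := Finset.card_pos.2 hG
  have hMr : (0 : ℝ) < (G.card : ℝ) := by exact_mod_cast hM
  have hpass : ∀ (r : Finset ι × (ι → M2)) (σ : ι → Bool), passOf r σ = 0 ∨ passOf r σ = 1 := by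
    intro r σ
    unfold passOf
    by_cases h : ∀ j ∈ r.1, σ j = true
    · exact Or.inr (if_pos h)
    · exact Or.inl (if_neg h)
  have h1G : 0 ≤ 1 / (G.card : ℝ) := by positivity
  set t : ℝ := cheb (1 + 1 / (G.card : ℝ)) k with ht
  have ht1 : 1 ≤ t := (cheb_ge_one_aux (x := 1 + 1 / (G.card : ℝ)) (by linarith) k).1
  have ht0 : 0 < t := by linarith
  have h1t : 0 ≤ 1 / t := by positivity
  have hE := ellOp_eq ρa hρa B G
  have hadj : ∀ Y : Op ι, (conjBy ρa Y)ᴴ = conjBy ρa Yᴴ := fun Y => by
    simp only [conjBy, Matrix.conjTranspose_mul, Matrix.conjTranspose_conjTranspose,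
      Matrix.mul_assoc]
  refine ⟨?_, ?_, ?_⟩
  · rw [hE, Matrix.conjTranspose_sum]
    refine Finset.sum_congr rfl fun σ _ => ?_
    rw [Matrix.conjTranspose_smul, hadj, patOp_herm hB]
    congr 1
    simp
  · rw [hE]
    refine opn_sum_pat_le ρa hρa hB _ _ ?_
    intro σ
    rw [Complex.norm_real, Real.norm_eq_abs]
    by_cases hall : ∀ r ∈ G, passOf r σ = 1
    · rw [ell_all_pass passOf G hG σ hall, abs_of_nonneg (by linarith)]
    · push Not at hall
      obtain ⟨r, hr, hne⟩ := hall
      have hr0 : passOf r σ = 0 := (hpass r σ).resolve_right hne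
      have := ell_abs_le passOf hpass G σ ⟨r, hr, hr0⟩
      linarith
  · have hBA : (fun j => if j ∈ G.biUnion (fun r => r.1) then B j else 1) = B := by
      funext j
      by_cases hj : j ∈ G.biUnion (fun r => r.1)
      · rw [if_pos hj]
      · rw [if_neg hj]
        symm
        apply hBS
        intro r hr hjr
        exact hj (Finset.mem_biUnion.2 ⟨r, hr, hjr⟩)
    have hfull : conjBy ρa (prodOp B) = ∑ σ : ι → Bool,
        (((if ∀ j ∈ G.biUnion (fun r => r.1), σ j = true then 1 else 0 : ℝ)) : ℂ)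
          • conjBy ρa (patOp B σ) := by
      rw [sum_ind_pat_op, hBA]
    have hdiff : conjBy ρa (prodOp B) - ((1 / t : ℝ) : ℂ) • chebOp (ellOp ρa B G) k
        = ∑ σ : ι → Bool, (((if ∀ j ∈ G.biUnion (fun r => r.1), σ j = true then 1 else 0 : ℝ)
            - (1 / t) * cheb (ell passOf G σ) k : ℝ) : ℂ) • conjBy ρa (patOp B σ) := by
      rw [hE, chebOp_sum_pat ρa hρa hB, hfull, Finset.smul_sum, ← Finset.sum_sub_distrib]
      refine Finset.sum_congr rfl fun σ _ => ?_
      rw [smul_smul, ← sub_smul]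
      congr 1
      push_cast
      ring
    rw [hdiff]
    refine opn_sum_pat_le ρa hρa hB _ (1 / t) ?_
    intro σ
    rw [Complex.norm_real, Real.norm_eq_abs]
    by_cases hall : ∀ r ∈ G, passOf r σ = 1
    · have hA : ∀ j ∈ G.biUnion (fun r => r.1), σ j = true := by
        intro j hj
        obtain ⟨r, hr, hjr⟩ := Finset.mem_biUnion.1 hj
        have h1 := hall r hr
        unfold passOf at h1
        by_contra hne
        have h2 : ¬ ∀ j ∈ r.1, σ j = true := fun h => hne (h j hjr)
        rw [if_neg h2] at h1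
        exact zero_ne_one h1
      rw [if_pos hA, ell_all_pass passOf G hG σ hall, ← ht, one_div_mul_cancel ht0.ne', sub_self,
        abs_zero]
      exact h1t
    · push Not at hall
      obtain ⟨r, hr, hne⟩ := hall
      have hr0 : passOf r σ = 0 := (hpass r σ).resolve_right hne
      have hA : ¬ ∀ j ∈ G.biUnion (fun r => r.1), σ j = true := by
        intro hA
        apply hne
        unfold passOf
        exact if_pos fun j hj => hA j (Finset.mem_biUnion.2 ⟨r, hr, hj⟩)
      rw [if_neg hA, zero_sub, abs_neg, abs_mul, abs_of_nonneg h1t]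
      have h3 := cheb_abs_le_one (ell_abs_le passOf hpass G σ ⟨r, hr, hr0⟩) k
      calc 1 / t * |cheb (ell passOf G σ) k| ≤ 1 / t * 1 :=
            mul_le_mul_of_nonneg_left h3 h1t
        _ = 1 / t := mul_one _

end Vale.Agent.Lib.P368
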