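import Vale.Agent.Lib.P368.D4.Level2

/-! # One gate above a stack of layers in which product projectors are well approximated -/

namespace Vale.Agent.Lib.P368

open Matrix Finset
open scoped Matrix.Norms.L2Operator

set_option linter.unusedSectionVars false

variable {ι : Type} [Fintype ι] [DecidableEq ι]

/-- the restriction of a family of one-site operators to the sites of `A` -/
def restr (B : ι → M2) (A : Finset ι) : ι → M2 := fun j => if j ∈ A then B j else 1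

theorem SiteP.restr {B : ι → M2} (hB : SiteP B) (A : Finset ι) : SiteP (restr B A) := by
  intro j
  unfold Vale.Agent.Lib.P368.restr
  by_cases hj : j ∈ A
  · rw [if_pos hj]; exact hB j
  · rw [if_neg hj]; exact Or.inl rfl

/-- below the stack `σ` every product of one-site projectors on `s` sites is within `η` of an
operator of cost `39 ^ D s` -/
def LevelApx (σ : List (Finset ι × (ι → M2))) (η : ℝ) (D : ℕ → ℕ) : Prop :=
  ∀ B : ι → M2, SiteP B → ∀ S : Finset ι, (∀ j, j ∉ S → B j = 1) →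
    Apx σ (1 + η) (39 ^ D S.card) (prodOp B)

theorem levelApx_two (ρ₂ : List (Finset ι × (ι → M2))) (hρ₂ : rlistValid ρ₂) (L : ℕ) :
    LevelApx ρ₂ (2 / 2 ^ L) (fun s => (Nat.sqrt s + 1) * L) :=
  fun B hB S hS => level2_apx ρ₂ hρ₂ B hB S hS L

/-- `reflOp r = 1 - 2 • prodOp r.2`; `H` for `r.2` and for `restr B r.1` with `S = r.1`,
`Apx.one_sub_two`, `Apx.mul` twice (as at the end of `top4_apx`, `D4/Top4.lean`), `Apx.mono` with
`(1 + 2 η) (1 + η) (1 + 2 η) ≤ 1 + 7 η` and `(1 + 2 c) c (1 + 2 c) ≤ 9 c ^ 3 ≤ 39 ^ (3 D s + 1)`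
for `c = 39 ^ D |r.1| ≤ 39 ^ D s` -/
theorem gate_apx (σ : List (Finset ι × (ι → M2))) (hσ : ∀ r ∈ σ, ReflValid r) (η : ℝ)
    (D : ℕ → ℕ) (hD : Monotone D) (H : LevelApx σ η D) (hη0 : 0 ≤ η) (hη : η ≤ 1 / 8)
    (r : Finset ι × (ι → M2)) (hr : ReflValid r) (s : ℕ) (hs : r.1.card ≤ s) (B : ι → M2)
    (hB : SiteP B) :
    Apx σ (1 + 7 * η) (39 ^ (3 * D s + 1)) (reflOp r * prodOp (restr B r.1) * reflOp r) := by
  have hrS : SiteP r.2 := by
    intro j
    by_cases hj : j ∈ r.1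
    · exact Or.inr (hr.1 j hj)
    · exact Or.inl (hr.2 j hj)
  have a1 : Apx σ (1 + η) (39 ^ D r.1.card) (prodOp r.2) := H r.2 hrS r.1 hr.2
  have a2 : Apx σ (1 + η) (39 ^ D r.1.card) (prodOp (restr B r.1)) :=
    H (restr B r.1) (hB.restr r.1) r.1 (by
      intro j hj
      unfold Vale.Agent.Lib.P368.restr
      rw [if_neg hj])
  have aR : Apx σ (2 * (1 + η) - 1) (1 + 2 * 39 ^ D r.1.card) (reflOp r) :=
    Apx.one_sub_two hσ a1
  have nR : ‖reflOp r‖ ≤ 1 := opn_reflOp_le hr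
  have nB : ‖prodOp (restr B r.1)‖ ≤ 1 := opn_prodOp_siteP_le (hB.restr r.1)
  have nRB : ‖reflOp r * prodOp (restr B r.1)‖ ≤ 1 :=
    (norm_mul_le _ _).trans (mul_le_one₀ nR (norm_nonneg _) nB)
  have h := Apx.mul hσ nRB nR (Apx.mul hσ nR nB aR a2) aR
  refine h.mono ?_ ?_
  · have h2 : η ^ 2 ≤ η / 8 := by nlinarith
    have h3 : η ^ 3 ≤ η / 64 := by nlinarith
    nlinarith
  · obtain ⟨c, hc⟩ : ∃ c : ℝ, c = 39 ^ D r.1.card := ⟨_, rfl⟩
    obtain ⟨C, hC⟩ : ∃ C : ℝ, C = 39 ^ D s := ⟨_, rfl⟩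
    have hc1 : 1 ≤ c := by rw [hc]; exact one_le_pow₀ (by norm_num)
    have hcC : c ≤ C := by
      rw [hc, hC]
      exact pow_le_pow_right₀ (by norm_num) (hD hs)
    have e1 : (39 : ℝ) ^ (3 * D s + 1) = 39 * C ^ 3 := by
      rw [hC, pow_succ, pow_mul']
      ring
    rw [e1, ← hc]
    have h3 : c ^ 3 ≤ C ^ 3 := pow_le_pow_left₀ (by linarith) hcC 3
    have h4 : (1 + 2 * c) * c * (1 + 2 * c) ≤ 9 * c ^ 3 := by
      have h5 : 1 + 2 * c ≤ 3 * c := by linarith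
      have h6 : (1 + 2 * c) * c * (1 + 2 * c) ≤ (3 * c) * c * (3 * c) := by gcongr
      calc (1 + 2 * c) * c * (1 + 2 * c) ≤ (3 * c) * c * (3 * c) := h6
        _ = 9 * c ^ 3 := by ring
    have h7 : 0 ≤ C ^ 3 := pow_nonneg (by linarith) 3
    linarith

end Vale.Agent.Lib.P368
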