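import Vale.Agent.Lib.P368.D4.Layer
import Vale.Agent.Lib.P368.D4.Split
import Vale.Agent.Lib.P368.D4R.ClassGate
import Vale.Agent.Lib.P368.D4R.ChebPat
import Vale.Agent.Lib.P368.D4R.ChebCost

/-! # A layer of gates: the exact polynomial identity -/

namespace Vale.Agent.Lib.P368

open Matrix Finset
open scoped Matrix.Norms.L2Operator

set_option linter.unusedSectionVars false

variable {ι : Type} [Fintype ι] [DecidableEq ι]

/-- a product operator living on the sites of one gate of the layer only sees that gate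
(induction on the list as in `top4_form`, `D4/Top4.lean`) -/
theorem conjBy_gate (ρa : List (Finset ι × (ι → M2))) (hρa : rlistValid ρa)
    (r : Finset ι × (ι → M2)) (hr : r ∈ ρa) (B : ι → M2) (hB : ∀ j, j ∉ r.1 → B j = 1) :
    conjBy ρa (prodOp B) = reflOp r * prodOp B * reflOp r := by
  induction ρa with
  | nil => exact absurd hr (List.not_mem_nil)
  | cons s l ih =>
    have hs := hρa.1 s List.mem_cons_self
    have hl : rlistValid l :=
      ⟨fun u hu => hρa.1 u (List.mem_cons_of_mem _ hu), (List.pairwise_cons.1 hρa.2).2⟩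
    have hd : ∀ u ∈ l, Disjoint s.1 u.1 := (List.pairwise_cons.1 hρa.2).1
    rw [conjBy_cons hs]
    rcases List.mem_cons.1 hr with h | h
    · subst h
      have hone : ∀ u ∈ l, ∀ j ∈ u.1, r.2 j = 1 ∧ B j = 1 := by
        intro u hu j hj
        have hjr : j ∉ r.1 := fun h => Finset.disjoint_left.1 (hd u hu) h hj
        exact ⟨hs.2 j hjr, hB j hjr⟩
      have e1 : conjBy l (reflOp r) = reflOp r := by
        unfold reflOp
        rw [conjBy_sub, conjBy_one l hl.1, conjBy_smul,
          conj_fix l hl.1 _ (fun u hu j hj => (hone u hu j hj).1)]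
      have e2 : conjBy l (prodOp B) = prodOp B :=
        conj_fix l hl.1 _ (fun u hu j hj => (hone u hu j hj).2)
      rw [conjBy_mul l hl.1, conjBy_mul l hl.1, e1, e2]
    · have hsr : Disjoint s.1 r.1 := hd r h
      rw [refl_commute hs (fun j hj => hB j (fun hjr => Finset.disjoint_left.1 hsr hj hjr))]
      exact ih hl h

/-- the gate `r` passes on the pattern `σ` -/
noncomputable def passOf (r : Finset ι × (ι → M2)) (σ : ι → Bool) : ℝ :=
  if ∀ j ∈ r.1, σ j = true then 1 else 0

/-- the affine function of the number of passing gates, as an operator -/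
noncomputable def ellOp (ρa : List (Finset ι × (ι → M2))) (B : ι → M2)
    (G : Finset (Finset ι × (ι → M2))) : Op ι :=
  ((2 / (G.card : ℝ) : ℝ) : ℂ) • ∑ r ∈ G, conjBy ρa (prodOp (restr B r.1))
    - ((((G.card : ℝ) - 1) / (G.card : ℝ) : ℝ) : ℂ) • (1 : Op ι)

/-- `sum_ind_pat_op` (`D4/Layer.lean`) with `A = r.1`, and `sum_patOp`, `conjBy_one`,
`conjBy_finsum` for the constant term -/
theorem ellOp_eq (ρa : List (Finset ι × (ι → M2))) (hρa : ∀ r ∈ ρa, ReflValid r) (B : ι → M2)
    (G : Finset (Finset ι × (ι → M2))) :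
    ellOp ρa B G = ∑ σ : ι → Bool, ((ell passOf G σ : ℝ) : ℂ) • conjBy ρa (patOp B σ) := by
  have h1 : ∀ r ∈ G, conjBy ρa (prodOp (restr B r.1))
      = ∑ σ : ι → Bool, ((passOf r σ : ℝ) : ℂ) • conjBy ρa (patOp B σ) := by
    intro r _
    exact (sum_ind_pat_op ρa B r.1).symm
  have h2 : (1 : Op ι) = ∑ σ : ι → Bool, conjBy ρa (patOp B σ) := by
    rw [← conjBy_finsum, sum_patOp, conjBy_one ρa hρa]
  unfold ellOp
  rw [Finset.sum_congr rfl h1, Finset.sum_comm, Finset.smul_sum]
  conv_lhs => rw [h2]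
  rw [Finset.smul_sum, ← Finset.sum_sub_distrib]
  refine Finset.sum_congr rfl fun σ _ => ?_
  rw [← Finset.sum_smul, smul_smul, ← sub_smul]
  congr 1
  unfold ell
  push_cast
  ring

end Vale.Agent.Lib.P368
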