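import Vale.Agent.Lib.P368.D4.Large

/-! # Gates with empty support; counting gates -/

namespace Vale.Agent.Lib.P368

open Matrix Finset

set_option linter.unusedSectionVars false

variable {ι : Type} [Fintype ι] [DecidableEq ι]

/-- a valid reflection with empty support is `-1` -/
theorem reflOp_of_card_zero {r : Finset ι × (ι → M2)} (h : ReflValid r) (h0 : ¬ 1 ≤ r.1.card) :
    reflOp r = -1 := by
  have he : r.1 = ∅ := by
    rw [← Finset.card_eq_zero]
    omega
  have h1 : r.2 = fun _ => (1 : M2) := by
    funext j
    exact h.2 j (by rw [he]; simp)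
  unfold reflOp
  rw [h1, prodOp_one]
  module

/-- a valid reflection with empty support is `-1` -/
theorem conjBy_filter_nonempty (ρ : List (Finset ι × (ι → M2))) (hρ : ∀ r ∈ ρ, ReflValid r)
    (X : Op ι) : conjBy ρ X = conjBy (ρ.filter (fun r => decide (1 ≤ r.1.card))) X := by
  induction ρ generalizing X with
  | nil => simp
  | cons r l ih =>
    have hr := hρ r List.mem_cons_self
    have hl : ∀ s ∈ l, ReflValid s := fun s hs => hρ s (List.mem_cons_of_mem _ hs)
    rw [conjBy_cons hr, ih hl]
    by_cases hc : 1 ≤ r.1.card
    · rw [List.filter_cons_of_pos (by simpa using hc), conjBy_cons hr]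
    · rw [List.filter_cons_of_neg (by simpa using hc), reflOp_of_card_zero hr hc]
      simp

/-- from `rlist_sum_card` (`D4/Large.lean`) -/
theorem class_count (l : List (Finset ι × (ι → M2))) (hl : rlistValid l) (t : ℕ)
    (h : ∀ r ∈ l, t ≤ r.1.card) : t * l.length ≤ Fintype.card ι := by
  refine le_trans ?_ (rlist_sum_card l hl)
  clear hl
  induction l with
  | nil => simp
  | cons r l ih =>
    have h1 := h r List.mem_cons_self
    have h2 := ih (fun s hs => h s (List.mem_cons_of_mem _ hs))
    rw [List.length_cons, List.map_cons, List.sum_cons, Nat.mul_succ]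
    omega

end Vale.Agent.Lib.P368
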