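import Vale.Agent.Lib.P368.D4.Split
import Vale.Agent.Lib.P368.D4.Large
import Vale.Agent.Lib.P368.D4R.ClassGate

/-! # Splitting a layer into two sublayers; counting gates -/

namespace Vale.Agent.Lib.P368

open Matrix Finset

set_option linter.unusedSectionVars false

variable {ι : Type} [Fintype ι] [DecidableEq ι]

/-- the sites outside all gates are not touched (`conjBy_factor` with `p = fun _ => false`) -/
theorem conjBy_outside (ρ : List (Finset ι × (ι → M2))) (hρ : rlistValid ρ) (B : ι → M2) :
    conjBy ρ (prodOp B)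
      = prodOp (fun j => if j ∈ suppUnion ρ then 1 else B j)
        * conjBy ρ (prodOp (restr B (suppUnion ρ))) := by
  have hB : prodOp B
      = prodOp (fun j => if j ∈ suppUnion ρ then 1 else B j)
        * prodOp (restr B (suppUnion ρ)) := by
    rw [prodOp_mul]
    congr 1
    funext j
    by_cases hj : j ∈ suppUnion ρ
    · simp [restr, hj]
    · simp [restr, hj]
  have hfix : conjBy ρ (prodOp (fun j => if j ∈ suppUnion ρ then 1 else B j))
      = prodOp (fun j => if j ∈ suppUnion ρ then 1 else B j) := by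
    refine conj_fix _ hρ.1 _ ?_
    intro r hr j hj
    have : j ∈ suppUnion ρ := (mem_suppUnion _ _).2 ⟨r, hr, hj⟩
    simp [this]
  conv_lhs => rw [hB]
  rw [conjBy_mul _ hρ.1, hfix]

/-- conjugation by a layer = conjugation by the gates not satisfying `p`, then by the others -/
theorem conjBy_split (ρ : List (Finset ι × (ι → M2))) (hρ : rlistValid ρ)
    (p : Finset ι × (ι → M2) → Bool) (X : Op ι) :
    conjBy ρ X = conjBy (ρ.filter p) (conjBy (ρ.filter (fun r => !p r)) X) := by
  unfold conjBy
  rw [rlistOp_split ρ hρ p, Matrix.conjTranspose_mul]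
  simp only [Matrix.mul_assoc]

/-- the same with the two sublayers exchanged -/
theorem conjBy_split' (ρ : List (Finset ι × (ι → M2))) (hρ : rlistValid ρ)
    (p : Finset ι × (ι → M2) → Bool) (X : Op ι) :
    conjBy ρ X = conjBy (ρ.filter (fun r => !p r)) (conjBy (ρ.filter p) X) := by
  have h := conjBy_split ρ hρ (fun r => !p r) X
  have e : ρ.filter (fun r => !(!p r)) = ρ.filter p := by
    congr 1
    funext r
    simp
  rw [e] at h
  exact h

/-- the supports of the two sublayers are disjoint -/
theorem suppUnion_filter_disjoint (ρ : List (Finset ι × (ι → M2))) (hρ : rlistValid ρ)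
    (p : Finset ι × (ι → M2) → Bool) (j : ι) (h1 : j ∈ suppUnion (ρ.filter p))
    (h2 : j ∈ suppUnion (ρ.filter (fun r => !p r))) : False := by
  obtain ⟨r, hr, hjr⟩ := (mem_suppUnion _ _).1 h1
  obtain ⟨s, hs, hjs⟩ := (mem_suppUnion _ _).1 h2
  have hr' := List.mem_filter.1 hr
  have hs' := List.mem_filter.1 hs
  have hne : r ≠ s := by
    intro e
    subst e
    have h3 := hr'.2
    have h4 := hs'.2
    simp [h3] at h4
  have : Std.Symm (fun a b : Finset ι × (ι → M2) => Disjoint a.1 b.1) :=
    ⟨fun _ _ hab => hab.symm⟩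
  have hd : Disjoint r.1 s.1 := hρ.2.forall hr'.1 hs'.1 hne
  exact Finset.disjoint_left.1 hd hjr hjs

/-- the two sublayers act independently.  From `conjBy_factor` (`D4/Split.lean`), or directly:
`prodOp B = prodOp (restr B U_p) * prodOp (restr B U_q)`, `conjBy_mul`, `rlistOp_split`, and a
sublayer fixes a product operator that is trivial on its sites (`conj_fix`) -/
theorem conjBy_factor2 (ρ : List (Finset ι × (ι → M2))) (hρ : rlistValid ρ)
    (p : Finset ι × (ι → M2) → Bool) (B : ι → M2) (hBS : ∀ j, j ∉ suppUnion ρ → B j = 1) :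
    conjBy ρ (prodOp B)
      = conjBy (ρ.filter p) (prodOp (restr B (suppUnion (ρ.filter p))))
        * conjBy (ρ.filter (fun r => !p r))
          (prodOp (restr B (suppUnion (ρ.filter (fun r => !p r))))) := by
  have hP := rlistValid_filter hρ p
  have hQ := rlistValid_filter hρ (fun r => !p r)
  have hB : prodOp B
      = prodOp (restr B (suppUnion (ρ.filter p)))
        * prodOp (restr B (suppUnion (ρ.filter (fun r => !p r)))) := by
    rw [prodOp_mul]
    congr 1
    funext j
    by_cases h1 : j ∈ suppUnion (ρ.filter p)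
    · have h2 : j ∉ suppUnion (ρ.filter (fun r => !p r)) :=
        fun h2 => suppUnion_filter_disjoint ρ hρ p j h1 h2
      simp [restr, h1, h2]
    · by_cases h2 : j ∈ suppUnion (ρ.filter (fun r => !p r))
      · simp [restr, h1, h2]
      · have h3 : j ∉ suppUnion ρ := by
          intro h3
          obtain ⟨r, hr, hjr⟩ := (mem_suppUnion _ _).1 h3
          by_cases hp : p r = true
          · exact h1 ((mem_suppUnion _ _).2 ⟨r, List.mem_filter.2 ⟨hr, hp⟩, hjr⟩)
          · exact h2 ((mem_suppUnion _ _).2 ⟨r, List.mem_filter.2 ⟨hr, by simpa using hp⟩, hjr⟩)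
        simp [restr, h1, h2, hBS j h3]
  have hfixP : conjBy (ρ.filter (fun r => !p r)) (prodOp (restr B (suppUnion (ρ.filter p))))
      = prodOp (restr B (suppUnion (ρ.filter p))) := by
    refine conj_fix _ hQ.1 _ ?_
    intro r hr j hj
    have h2 : j ∈ suppUnion (ρ.filter (fun r => !p r)) := (mem_suppUnion _ _).2 ⟨r, hr, hj⟩
    have h1 : j ∉ suppUnion (ρ.filter p) :=
      fun h1 => suppUnion_filter_disjoint ρ hρ p j h1 h2
    simp [restr, h1]
  have hfixQ : conjBy (ρ.filter p) (prodOp (restr B (suppUnion (ρ.filter (fun r => !p r)))))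
      = prodOp (restr B (suppUnion (ρ.filter (fun r => !p r)))) := by
    refine conj_fix _ hP.1 _ ?_
    intro r hr j hj
    have h1 : j ∈ suppUnion (ρ.filter p) := (mem_suppUnion _ _).2 ⟨r, hr, hj⟩
    have h2 : j ∉ suppUnion (ρ.filter (fun r => !p r)) :=
      fun h2 => suppUnion_filter_disjoint ρ hρ p j h1 h2
    simp [restr, h2]
  conv_lhs => rw [hB]
  rw [conjBy_mul _ hρ.1]
  congr 1
  · rw [conjBy_split ρ hρ p, hfixP]
  · rw [conjBy_split' ρ hρ p, hfixQ]

end Vale.Agent.Lib.P368
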