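import Vale.Agent.Lib.P368.D4R.ClassApx
import Vale.Agent.Lib.P368.D4R.Factor2
import Vale.Agent.Lib.P368.D4R.Count2

/-! # A whole layer above a stack: dyadic classes of gate sizes -/

namespace Vale.Agent.Lib.P368

open Matrix Finset
open scoped Matrix.Norms.L2Operator

set_option linter.unusedSectionVars false

variable {ι : Type} [Fintype ι] [DecidableEq ι]

/-- bound for the number of gates with at least `2 ^ (a - 1)` qubits -/
def Mcls (N a : ℕ) : ℕ := N / 2 ^ (a - 1)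

/-- the exponent of the cost of the class `a` -/
def clsExp (D : ℕ → ℕ) (N L a : ℕ) : ℕ :=
  (3 * D (2 ^ a) + 2) * ((Nat.sqrt (Mcls N a) + 1) * L)

/-- the exponent of the cost of a whole layer -/
def totExp (D : ℕ → ℕ) (N L : ℕ) : ℕ :=
  D N + ∑ a ∈ Finset.range (Nat.log 2 N + 2), clsExp D N L a

theorem one_class (σ : List (Finset ι × (ι → M2))) (hσ : ∀ r ∈ σ, ReflValid r) (η : ℝ)
    (D : ℕ → ℕ) (hD : Monotone D) (H : LevelApx σ η D) (hη0 : 0 ≤ η) (hη : η ≤ 1 / 8) (L : ℕ)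
    (K : ℝ) (hK : K = (((Nat.sqrt (Fintype.card ι) + 1) * L : ℕ) : ℝ))
    (hsmall : 224 * K ^ 2 * η ≤ 1) (a : ℕ)
    (ρa : List (Finset ι × (ι → M2))) (hρa : rlistValid ρa)
    (hlo : ∀ r ∈ ρa, 2 ^ (a - 1) ≤ r.1.card) (hhi : ∀ r ∈ ρa, r.1.card ≤ 2 ^ a)
    (B : ι → M2) (hB : SiteP B) (hBS : ∀ j, j ∉ suppUnion ρa → B j = 1) :
    Apx σ (1 + 2 / 2 ^ L + 84 * K ^ 2 * η) (39 ^ clsExp D (Fintype.card ι) L a)
      (conjBy ρa (prodOp B)) := by
  have hM : ρa.length ≤ Mcls (Fintype.card ι) a := by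
    unfold Mcls
    rw [Nat.le_div_iff_mul_le (by positivity), mul_comm]
    exact class_count ρa hρa _ hlo
  set k : ℕ := (Nat.sqrt (Mcls (Fintype.card ι) a) + 1) * L with hk
  have hkK : (k : ℝ) ≤ K := by
    rw [hK]
    have h1 : Mcls (Fintype.card ι) a ≤ Fintype.card ι := Nat.div_le_self _ _
    have h2 := Nat.sqrt_le_sqrt h1
    have h3 : k ≤ (Nat.sqrt (Fintype.card ι) + 1) * L := Nat.mul_le_mul_right _ (by omega)
    exact_mod_cast h3
  have hk0 : (0 : ℝ) ≤ k := Nat.cast_nonneg _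
  have hk2 : (k : ℝ) ^ 2 ≤ K ^ 2 := pow_le_pow_left₀ hk0 hkK 2
  have hk2η : (k : ℝ) ^ 2 * η ≤ K ^ 2 * η := mul_le_mul_of_nonneg_right hk2 hη0
  set cE : ℝ := 39 ^ (3 * D (2 ^ a) + 1) with hcE
  have hc1 : 1 ≤ cE := one_le_pow₀ (by norm_num)
  have h := class_apx σ hσ ρa hρa B hB hBS (7 * η) cE (by linarith) hc1
    (fun r hr => gate_apx σ hσ η D hD H hη0 hη r (hρa.1 r hr) _ (hhi r hr) B hB)
    (Mcls (Fintype.card ι) a) hM L k hk (by nlinarith)
  refine h.mono (by nlinarith) ?_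
  have h4 : 4 * cE + 3 ≤ 39 ^ (3 * D (2 ^ a) + 2) := by
    rw [pow_succ (39 : ℝ) (3 * D (2 ^ a) + 1), ← hcE]
    linarith
  calc (4 * cE + 3) ^ k ≤ ((39 : ℝ) ^ (3 * D (2 ^ a) + 2)) ^ k :=
        pow_le_pow_left₀ (by linarith) h4 k
    _ = 39 ^ clsExp D (Fintype.card ι) L a := by
        rw [← pow_mul]
        rfl

theorem opn_conj_siteP (ρ : List (Finset ι × (ι → M2))) (hρ : ∀ r ∈ ρ, ReflValid r) {B : ι → M2}
    (hB : SiteP B) : ‖conjBy ρ (prodOp B)‖ ≤ 1 :=
  (opn_conjBy_le ρ hρ _).trans (opn_prodOp_siteP_le hB)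

theorem dyadic_apx (σ : List (Finset ι × (ι → M2))) (hσ : ∀ r ∈ σ, ReflValid r) (η : ℝ)
    (D : ℕ → ℕ) (hD : Monotone D) (H : LevelApx σ η D) (hη0 : 0 ≤ η) (hη : η ≤ 1 / 8) (L : ℕ)
    (K : ℝ) (hK : K = (((Nat.sqrt (Fintype.card ι) + 1) * L : ℕ) : ℝ))
    (hsmall : 224 * K ^ 2 * η ≤ 1) (A : ℕ) :
    ∀ (ρ : List (Finset ι × (ι → M2))), rlistValid ρ →
      (∀ r ∈ ρ, 1 ≤ r.1.card ∧ r.1.card ≤ 2 ^ A) → ∀ B : ι → M2, SiteP B →
      (∀ j, j ∉ suppUnion ρ → B j = 1) →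
      Apx σ ((1 + 2 / 2 ^ L + 84 * K ^ 2 * η) ^ (A + 1))
        (39 ^ (∑ a ∈ Finset.range (A + 1), clsExp D (Fintype.card ι) L a))
        (conjBy ρ (prodOp B)) := by
  induction A with
  | zero =>
    intro ρ hρ hs B hB hBS
    have h := one_class σ hσ η D hD H hη0 hη L K hK hsmall 0 ρ hρ
      (fun r hr => by simpa using (hs r hr).1) (fun r hr => (hs r hr).2) B hB hBS
    simpa using h
  | succ A ih =>
    intro ρ hρ hs B hB hBS
    set p : Finset ι × (ι → M2) → Bool := fun r => decide (2 ^ A < r.1.card) with hp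
    rw [conjBy_factor2 ρ hρ p B hBS]
    have vb := rlistValid_filter hρ p
    have vs := rlistValid_filter hρ (fun r => !p r)
    have hb := one_class σ hσ η D hD H hη0 hη L K hK hsmall (A + 1) (ρ.filter p) vb
      (fun r hr => by
        have h1 := (List.mem_filter.1 hr).2
        simp only [hp, decide_eq_true_eq] at h1
        simpa using h1.le)
      (fun r hr => (hs r (List.mem_filter.1 hr).1).2)
      (restr B (suppUnion (ρ.filter p))) (hB.restr _)
      (fun j hj => by unfold restr; rw [if_neg hj])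
    have hsm := ih (ρ.filter (fun r => !p r)) vs
      (fun r hr => by
        have h1 := (List.mem_filter.1 hr).2
        simp only [hp, Bool.not_eq_true', decide_eq_false_iff_not, not_lt] at h1
        exact ⟨(hs r (List.mem_filter.1 hr).1).1, h1⟩)
      (restr B (suppUnion (ρ.filter (fun r => !p r)))) (hB.restr _)
      (fun j hj => by unfold restr; rw [if_neg hj])
    have hm := Apx.mul hσ (opn_conj_siteP _ vb.1 (hB.restr _)) (opn_conj_siteP _ vs.1 (hB.restr _))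
      hb hsm
    refine hm.mono (le_of_eq ?_) (le_of_eq ?_)
    · rw [pow_succ (1 + 2 / 2 ^ L + 84 * K ^ 2 * η) (A + 1), mul_comm]
    · rw [Finset.sum_range_succ _ (A + 1), pow_add, mul_comm]

/-- one more layer on top of the stack -/
theorem level_step (σ : List (Finset ι × (ι → M2))) (hσ : ∀ r ∈ σ, ReflValid r) (η : ℝ)
    (D : ℕ → ℕ) (hD : Monotone D) (H : LevelApx σ η D) (hη0 : 0 ≤ η) (hη : η ≤ 1 / 8) (L : ℕ)
    (K : ℝ) (hK : K = (((Nat.sqrt (Fintype.card ι) + 1) * L : ℕ) : ℝ))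
    (hsmall : 224 * K ^ 2 * η ≤ 1) (ρ : List (Finset ι × (ι → M2))) (hρ : rlistValid ρ)
    (B : ι → M2) (hB : SiteP B) :
    Apx σ ((1 + η) * (1 + 2 / 2 ^ L + 84 * K ^ 2 * η) ^ (Nat.log 2 (Fintype.card ι) + 2))
      (39 ^ totExp D (Fintype.card ι) L) (conjBy ρ (prodOp B)) := by
  rw [conjBy_filter_nonempty ρ hρ.1]
  set ρ' := ρ.filter (fun r => decide (1 ≤ r.1.card)) with hρ'
  have v' : rlistValid ρ' := rlistValid_filter hρ _
  rw [conjBy_outside ρ' v' B]
  have hB1 : SiteP (fun j => if j ∈ suppUnion ρ' then 1 else B j) := by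
    intro j
    by_cases hj : j ∈ suppUnion ρ'
    · simp only [if_pos hj]; exact Or.inl trivial
    · simp only [if_neg hj]; exact hB j
  have h1 := H _ hB1 Finset.univ (fun j hj => absurd (Finset.mem_univ j) hj)
  rw [Finset.card_univ] at h1
  have h2 := dyadic_apx σ hσ η D hD H hη0 hη L K hK hsmall (Nat.log 2 (Fintype.card ι) + 1) ρ' v'
    (fun r hr => by
      have h3 := (List.mem_filter.1 hr).2
      simp only [decide_eq_true_eq] at h3
      refine ⟨h3, ?_⟩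
      have h4 : r.1.card ≤ Fintype.card ι := Finset.card_le_univ _
      have h5 := Nat.lt_pow_succ_log_self (b := 2) (by norm_num) (Fintype.card ι)
      omega)
    (restr B (suppUnion ρ')) (hB.restr _) (fun j hj => by unfold restr; rw [if_neg hj])
  have hm := Apx.mul hσ (opn_prodOp_siteP_le hB1) (opn_conj_siteP _ v'.1 (hB.restr _)) h1 h2
  refine hm.mono (le_of_eq rfl) (le_of_eq ?_)
  unfold totExp
  rw [pow_add]

end Vale.Agent.Lib.P368
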