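import Vale.Agent.Lib.P368.D4R.ScalarA
import Vale.Agent.Lib.P368.D4.Final4

/-! # Choice of the accuracy at depth four -/

namespace Vale.Agent.Lib.P368

theorem log_thirtynine_le : Real.log 39 ≤ 53 / 10 * Real.log 2 := by
  have h : Real.log ((39 : ℝ) ^ 10) ≤ Real.log ((2 : ℝ) ^ 53) :=
    Real.log_le_log (by positivity) (by norm_num)
  rw [Real.log_pow, Real.log_pow] at h
  push_cast at h
  linarith

theorem scalar4R_core (gam : ℝ) (hgp : 0 < gam) (log_gam : Real.log gam = -(1 / 4) * Real.log 2)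
    (n N : ℕ) (X : ℕ → ℕ)
    (hX : ∀ L : ℕ, 1 ≤ L → (X L : ℝ)
      ≤ 60 * ((Nat.log 2 N : ℝ) + 2) * (L : ℝ) ^ 2 * Real.sqrt N)
    (ε : ℝ) (hε0 : 0 < ε) (hε1 : ε ≤ 1) (hN : 1 ≤ N)
    (h : 4000 * Real.sqrt N * (Real.logb 2 (2000 * ((N : ℝ) + 1) / ε)) ^ 3 ≤ n) :
    ∃ L : ℕ, 1000 * ((N : ℝ) + 1) / ε ≤ 2 ^ L ∧
      9 * ((39 : ℝ) ^ X L) ^ 3 * gam ^ n ≤ ε / 4 := by
  have hN' : (1 : ℝ) ≤ N := by exact_mod_cast hN
  have hN0 : (0 : ℝ) ≤ N := by linarith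
  obtain ⟨s, hs⟩ : ∃ s : ℝ, s = Real.sqrt N := ⟨_, rfl⟩
  have hs1 : 1 ≤ s := by rw [hs]; exact Real.one_le_sqrt.2 hN'
  obtain ⟨A, hA⟩ : ∃ A : ℝ, A = 1000 * ((N : ℝ) + 1) / ε := ⟨_, rfl⟩
  have hA2 : 2000 * ((N : ℝ) + 1) / ε = 2 * A := by rw [hA]; ring
  rw [hA2, ← hs] at h
  have hA1 : 1000 * ((N : ℝ) + 1) ≤ A := by
    rw [hA, le_div_iff₀ hε0]
    have : 0 ≤ 1000 * ((N : ℝ) + 1) := by positivity
    nlinarith
  have hA3 : (2000 : ℝ) ≤ A := by linarith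
  have hApos : 0 < A := by linarith
  obtain ⟨Λ, hΛ⟩ : ∃ Λ : ℝ, Λ = Real.logb 2 (2 * A) := ⟨_, rfl⟩
  rw [← hΛ] at h
  have hl2 : 0 < Real.log 2 := Real.log_pos (by norm_num)
  have hΛ1 : Λ = Real.logb 2 A + 1 := by
    rw [hΛ, Real.logb_mul (by norm_num) hApos.ne', Real.logb_self_eq_one (by norm_num)]; ring
  have hΛlog : Λ * Real.log 2 = Real.log (2 * A) := by
    rw [hΛ, Real.logb]; field_simp
  have hB10 : 10 ≤ Real.logb 2 A := by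
    rw [Real.le_logb_iff_rpow_le (by norm_num) hApos]
    have e : (2 : ℝ) ^ (10 : ℝ) = 1024 := by
      rw [show (10 : ℝ) = ((10 : ℕ) : ℝ) by norm_num, Real.rpow_natCast]; norm_num
    rw [e]; linarith
  obtain ⟨L, hL⟩ : ∃ L : ℕ, L = ⌈Real.logb 2 A⌉₊ := ⟨_, rfl⟩
  have hL1 : Real.logb 2 A ≤ L := by rw [hL]; exact Nat.le_ceil _
  have hL2 : (L : ℝ) ≤ Λ := by
    rw [hL, hΛ1]; exact (Nat.ceil_lt_add_one (by linarith)).le
  have hLone : 1 ≤ L := by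
    have : (1 : ℝ) ≤ L := by linarith
    exact_mod_cast this
  have h2L : A ≤ (2 : ℝ) ^ L := by
    calc A = (2 : ℝ) ^ (Real.logb 2 A) := by
          rw [Real.rpow_logb (by norm_num) (by norm_num) hApos]
      _ ≤ (2 : ℝ) ^ (L : ℝ) := Real.rpow_le_rpow_of_exponent_le (by norm_num) hL1
      _ = (2 : ℝ) ^ L := Real.rpow_natCast _ _
  refine ⟨L, hA ▸ h2L, ?_⟩
  have hlogN : (Nat.log 2 N : ℝ) + 2 ≤ Λ := by
    have e1 : ((2 : ℝ) ^ (Nat.log 2 N)) ≤ N := by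
      have := Nat.pow_log_le_self 2 (x := N) (by omega)
      exact_mod_cast this
    have e2 : ((Nat.log 2 N : ℝ) + 2) = Real.logb 2 (2 ^ (Nat.log 2 N) * 4) := by
      rw [Real.logb_mul (by positivity) (by norm_num), Real.logb_pow,
        Real.logb_self_eq_one (by norm_num), show (4 : ℝ) = 2 ^ 2 by norm_num, Real.logb_pow,
        Real.logb_self_eq_one (by norm_num)]
      push_cast; ring
    rw [e2, hΛ]
    apply Real.logb_le_logb_of_le (by norm_num) (by positivity)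
    nlinarith
  have hE := hX L hLone
  obtain ⟨E, hEdef⟩ : ∃ E : ℕ, E = X L := ⟨_, rfl⟩
  rw [← hEdef, ← hs] at hE
  rw [← hEdef]
  have hΛ0 : 11 ≤ Λ := by linarith
  have hL0 : (0 : ℝ) ≤ L := Nat.cast_nonneg _
  have hE2 : (E : ℝ) ≤ 60 * Λ ^ 3 * s := by
    calc (E : ℝ) ≤ 60 * ((Nat.log 2 N : ℝ) + 2) * (L : ℝ) ^ 2 * s := hE
      _ ≤ 60 * Λ * Λ ^ 2 * s := by gcongr
      _ = 60 * Λ ^ 3 * s := by ring
  have key : Real.log (9 * ((39 : ℝ) ^ E) ^ 3 * gam ^ n) ≤ Real.log (ε / 4) := by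
    rw [Real.log_mul (by positivity) (by positivity), Real.log_mul (by norm_num) (by positivity),
      Real.log_pow, Real.log_pow, Real.log_pow, log_gam, Real.log_div hε0.ne' (by norm_num)]
    push_cast
    obtain ⟨l, hl⟩ : ∃ l : ℝ, l = Real.log 2 := ⟨_, rfl⟩
    rw [← hl] at hΛlog hl2 ⊢
    have h39 : Real.log 39 ≤ 53 / 10 * l := by rw [hl]; exact log_thirtynine_le
    have f6 : Real.log 9 + Real.log 4 - Real.log ε ≤ Λ * l := by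
      have e1 : Real.log (36 / ε) ≤ Real.log (2 * A) := by
        apply Real.log_le_log (by positivity)
        rw [hA, ← mul_div_assoc]
        apply div_le_div_of_nonneg_right _ hε0.le
        linarith
      rw [Real.log_div (by norm_num) hε0.ne', show (36 : ℝ) = 9 * 4 by norm_num,
        Real.log_mul (by norm_num) (by norm_num)] at e1
      rw [hΛlog]; exact e1
    have hE0 : (0 : ℝ) ≤ E := Nat.cast_nonneg _
    have g1 : 3 * ((E : ℝ) * Real.log 39) ≤ 3 * ((E : ℝ) * (53 / 10 * l)) := by gcongr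
    have g3 : (E : ℝ) * l ≤ 60 * Λ ^ 3 * s * l := mul_le_mul_of_nonneg_right hE2 hl2.le
    have g4 : 4000 * s * Λ ^ 3 * l ≤ n * l := mul_le_mul_of_nonneg_right h hl2.le
    have g5 : Λ * l ≤ s * Λ ^ 3 * l := by
      apply mul_le_mul_of_nonneg_right _ hl2.le
      have : Λ ≤ Λ ^ 3 := by nlinarith [sq_nonneg Λ]
      nlinarith [pow_pos (by linarith : (0:ℝ) < Λ) 3]
    have g6 : 0 ≤ s * Λ ^ 3 * l := by positivity
    nlinarith
  exact (Real.log_le_log_iff (by positivity) (by positivity)).1 key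

/-- `L = ⌈logb 2 (1000 (N + 1) / ε)⌉₊`, `Λ = logb 2 (2000 (N + 1) / ε) = logb 2 (1000 (N + 1) / ε) + 1`.
Then `1 ≤ L ≤ Λ`, `Nat.log 2 N + 2 ≤ Λ` (as `4 N ≤ 2000 (N + 1) / ε`), so by `expoR_le`
`X = expoR N (3 L) L ≤ 60 Λ ^ 3 sqrt N ≤ (60 / 4000) n`.  `cost4` (`D4/Final4.lean`):
`(1 + 2 c) c (1 + 2 c) ≤ 9 c ^ 3 = 9 * 39 ^ (3 X)`.  Take logarithms (`log_gam`, `D4/Scalar4.lean`):
`log 39 ≤ (53 / 10) log 2` (`39 ^ 10 ≤ 2 ^ 53`), `3 X * 5.3 ≤ 0.2385 n`, and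
`(0.25 - 0.2385) n ≥ 46 Λ ≥ logb 2 (36 / ε)`.  Compare the proof of `scalar4`. -/
theorem scalar4R (n N : ℕ) (ε : ℝ) (hε0 : 0 < ε) (hε1 : ε ≤ 1) (hN : 1 ≤ N)
    (h : 4000 * Real.sqrt N * (Real.logb 2 (2000 * ((N : ℝ) + 1) / ε)) ^ 3 ≤ n) :
    ∃ L : ℕ, 1000 * ((N : ℝ) + 1) / ε ≤ 2 ^ L ∧
      ∀ c : ℝ, c = 39 ^ expoR N (3 * L) L →
        (1 + 2 * c) * c * (1 + 2 * c) * gam ^ n ≤ ε / 4 := by
  obtain ⟨L, h1, h2⟩ := scalar4R_core gam gam_pos log_gam n N (fun L => expoR N (3 * L) L)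
    (fun L hL => expoR_le N L hN hL) ε hε0 hε1 hN h
  refine ⟨L, h1, ?_⟩
  intro c hc
  have hc1 : 1 ≤ c := by rw [hc]; exact one_le_pow₀ (by norm_num)
  have h3 := cost4 c hc1
  have hg : 0 ≤ gam ^ n := pow_nonneg gam_pos.le _
  calc (1 + 2 * c) * c * (1 + 2 * c) * gam ^ n ≤ 9 * c ^ 3 * gam ^ n :=
        mul_le_mul_of_nonneg_right h3 hg
    _ ≤ ε / 4 := by rw [hc]; exact h2

end Vale.Agent.Lib.P368
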