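import Vale.Agent.Lib.P368.D4R.ScalarB
import Vale.Agent.Lib.P368.D4R.ScalarC

/-! # Entangling depth four: nearly quadratically many qubits are needed -/

namespace Vale.Agent.Lib.P368

/-- entangling depth at most four: no fixed correlation with `o (n ^ 2 / (log n) ^ 6)` qubits -/
theorem depth_four_robust {n a : ℕ} (C : List (List (Gate (Fin n ⊕ Fin a))))
    (hC : circuitValid C) (hd : entanglingDepth C ≤ 4) (o : Fin n ⊕ Fin a) (ε : ℝ) (hε0 : 0 < ε)
    (hε1 : ε ≤ 1)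
    (h : 4000 * Real.sqrt ((n : ℝ) + a) * (Real.logb 2 (2000 * ((n : ℝ) + a + 1) / ε)) ^ 3 ≤ n) :
    |parityCorrelation C o| ≤ ε := by
  have hN : 1 ≤ n + a := by
    rcases o with i | i
    · have := i.pos; omega
    · have := i.pos; omega
  have h' : 4000 * Real.sqrt ((n + a : ℕ) : ℝ)
      * (Real.logb 2 (2000 * (((n + a : ℕ) : ℝ) + 1) / ε)) ^ 3 ≤ n := by
    push_cast
    exact h
  obtain ⟨L, hL, hc⟩ := scalar4R n (n + a) ε hε0 hε1 hN h'
  obtain ⟨h8, hsmall, herr⟩ := errR (n + a) L ε hε0 hε1 hN hL _ _ rfl rfl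
  have := depth_four_paramR C hC hd o (3 * L) L _ rfl h8 hsmall _ _ rfl rfl
  have h2 := hc _ rfl
  linarith

end Vale.Agent.Lib.P368
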