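import Vale.Agent.Lib.P368.D4R.ChebOp

/-! # The difference of the Chebyshev polynomials of two operators: exact formula -/

namespace Vale.Agent.Lib.P368

open Matrix Finset

set_option linter.unusedSectionVars false

variable {ι : Type} [Fintype ι] [DecidableEq ι]

theorem chebOp_succ_succ (A : Op ι) (k : ℕ) :
    chebOp A (k + 2) = (2 : ℂ) • (A * chebOp A (k + 1)) - chebOp A k := by
  rw [chebOp]

theorem chebUOp_succ_succ (A : Op ι) (k : ℕ) :
    chebUOp A (k + 2) = (2 : ℂ) • (A * chebUOp A (k + 1)) - chebUOp A k := by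
  rw [chebUOp]

theorem chebOp_zero' (A : Op ι) : chebOp A 0 = 1 := by rw [chebOp]

theorem chebOp_one' (A : Op ι) : chebOp A 1 = A := by rw [chebOp]

theorem chebUOp_zero' (A : Op ι) : chebUOp A 0 = 1 := by rw [chebUOp]

theorem chebUOp_one' (A : Op ι) : chebUOp A 1 = (2 : ℂ) • A := by rw [chebUOp]

/-- the recursion of the sum in the formula -/
theorem chebOp_sub_sum_aux (A D : Op ι) (T : ℕ → Op ι) (k : ℕ) :
    ∑ j ∈ Finset.range k, chebUOp A (k + 2 - 1 - j) * D * T j
      = (2 : ℂ) • (A * ∑ j ∈ Finset.range k, chebUOp A (k + 1 - 1 - j) * D * T j)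
        - ∑ j ∈ Finset.range k, chebUOp A (k - 1 - j) * D * T j := by
  rw [Finset.mul_sum, Finset.smul_sum, ← Finset.sum_sub_distrib]
  refine Finset.sum_congr rfl fun j hj => ?_
  have hj' : j < k := Finset.mem_range.mp hj
  obtain ⟨m, rfl⟩ : ∃ m, k = j + 1 + m := ⟨k - j - 1, by omega⟩
  have e2 : j + 1 + m + 2 - 1 - j = m + 2 := by omega
  have e1 : j + 1 + m + 1 - 1 - j = m + 1 := by omega
  have e0 : j + 1 + m - 1 - j = m := by omega
  rw [e2, e1, e0, chebUOp_succ_succ, sub_mul, sub_mul, smul_mul_assoc, smul_mul_assoc,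
    mul_assoc A, mul_assoc A]

/-- the exact formula for the difference (two-step induction on `k`; no commutation is used):
`T_{k+1}(A) - T_{k+1}(B) = U_k(A) (A - B) + 2 ∑_{j < k} U_{k-1-j}(A) (A - B) T_{j+1}(B)` -/
theorem chebOp_sub_formula (A B : Op ι) (k : ℕ) :
    chebOp A (k + 1) - chebOp B (k + 1)
      = chebUOp A k * (A - B)
        + (2 : ℂ) • ∑ j ∈ Finset.range k, chebUOp A (k - 1 - j) * (A - B) * chebOp B (j + 1) := by
  induction k using Nat.twoStepInduction with
  | zero =>
    simp [chebOp_one', chebUOp_zero']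
  | one =>
    have h2A : chebOp A (1 + 1) = (2 : ℂ) • (A * chebOp A (0 + 1)) - chebOp A 0 :=
      chebOp_succ_succ A 0
    have h2B : chebOp B (1 + 1) = (2 : ℂ) • (B * chebOp B (0 + 1)) - chebOp B 0 :=
      chebOp_succ_succ B 0
    rw [h2A, h2B]
    simp only [Finset.sum_range_one, zero_add, chebOp_one', chebOp_zero', chebUOp_one',
      Nat.sub_self, Nat.zero_sub, chebUOp_zero', two_smul]
    noncomm_ring
  | more k ih0 ih1 =>
    have hA : chebOp A (k + 2 + 1) = (2 : ℂ) • (A * chebOp A (k + 1 + 1)) - chebOp A (k + 1) :=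
      chebOp_succ_succ A (k + 1)
    have hB : chebOp B (k + 2 + 1) = (2 : ℂ) • (B * chebOp B (k + 1 + 1)) - chebOp B (k + 1) :=
      chebOp_succ_succ B (k + 1)
    have hstep : chebOp A (k + 2 + 1) - chebOp B (k + 2 + 1)
        = (2 : ℂ) • (A * (chebOp A (k + 1 + 1) - chebOp B (k + 1 + 1)))
          + (2 : ℂ) • ((A - B) * chebOp B (k + 1 + 1))
          - (chebOp A (k + 1) - chebOp B (k + 1)) := by
      rw [hA, hB]
      simp only [two_smul]
      noncomm_ring
    rw [hstep, ih0, ih1]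
    rw [Finset.sum_range_succ (n := k + 1), Finset.sum_range_succ (n := k),
      Finset.sum_range_succ (n := k),
      chebOp_sub_sum_aux A (A - B) (fun j => chebOp B (j + 1)) k]
    have e1 : k + 2 - 1 - k = 1 := by omega
    have e0 : k + 2 - 1 - (k + 1) = 0 := by omega
    have e0' : k + 1 - 1 - k = 0 := by omega
    rw [e1, e0, e0', chebUOp_one', chebUOp_zero', chebUOp_succ_succ]
    generalize (∑ j ∈ Finset.range k, chebUOp A (k + 1 - 1 - j) * (A - B) * chebOp B (j + 1)) = S1
    generalize (∑ j ∈ Finset.range k, chebUOp A (k - 1 - j) * (A - B) * chebOp B (j + 1)) = S0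
    simp only [two_smul]
    noncomm_ring

end Vale.Agent.Lib.P368
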