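import Vale.Agent.Lib.P368.D4R.Top4R

/-! # The exponent at depth four is of order `sqrt N * log N * L ^ 2` -/

namespace Vale.Agent.Lib.P368

/-- the pure real inequality behind `clsExp_le` -/
theorem clsExp_real {x y u v l s : ℝ} (hx0 : 0 ≤ x) (hy0 : 0 ≤ y) (hx : x ≤ u) (hy : y ≤ v)
    (hu : 1 ≤ u) (hv : 1 ≤ v) (hl : 1 ≤ l) (hs : 0 ≤ s) (huv : u * v ≤ 1415 / 1000 * s) :
    (3 * ((x + 1) * (3 * l)) + 2) * ((y + 1) * l) ≤ 57 * l ^ 2 * s := by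
  have h1 : 3 * ((x + 1) * (3 * l)) + 2 ≤ 20 * (l * u) := by
    have a1 : (x + 1) * (3 * l) ≤ (2 * u) * (3 * l) :=
      mul_le_mul_of_nonneg_right (by linarith) (by linarith)
    have a2 : 1 ≤ l * u := by nlinarith
    nlinarith
  have h2 : (y + 1) * l ≤ 2 * v * l := mul_le_mul_of_nonneg_right (by linarith) (by linarith)
  have h3 : 0 ≤ (y + 1) * l := by positivity
  have h4 : 0 ≤ 20 * (l * u) := by positivity
  calc (3 * ((x + 1) * (3 * l)) + 2) * ((y + 1) * l)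
      ≤ (20 * (l * u)) * (2 * v * l) := mul_le_mul h1 h2 h3 h4
    _ = 40 * l ^ 2 * (u * v) := by ring
    _ ≤ 40 * l ^ 2 * (1415 / 1000 * s) := mul_le_mul_of_nonneg_left huv (by positivity)
    _ ≤ 57 * l ^ 2 * s := by
        have : 0 ≤ l ^ 2 * s := by positivity
        nlinarith

/-- With `u = sqrt (2 ^ a) ≥ 1` and `v = sqrt (N / 2 ^ (a - 1)) ≥ 1` (real division):
`Nat.sqrt (2 ^ a) ≤ u`, `Nat.sqrt (N / 2 ^ (a - 1)) ≤ v` (`Real.nat_sqrt_le_real_sqrt`,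
`Nat.cast_div_le`), so the left side is at most `(9 L * 2 u + 2) * (2 v) * L ≤ 40 L ^ 2 u v`, and
`u v ≤ sqrt (2 N)`, `40 * sqrt 2 ≤ 57`. -/
theorem clsExp_le (N L a : ℕ) (hL : 1 ≤ L) (ha : 2 ^ (a - 1) ≤ N) :
    (clsExp (fun s => (Nat.sqrt s + 1) * (3 * L)) N L a : ℝ)
      ≤ 57 * (L : ℝ) ^ 2 * Real.sqrt N := by
  unfold clsExp Mcls
  push_cast
  have hA : (1 : ℝ) ≤ (2 : ℝ) ^ a := one_le_pow₀ (by norm_num)
  have hB : (1 : ℝ) ≤ (2 : ℝ) ^ (a - 1) := one_le_pow₀ (by norm_num)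
  have hBpos : (0 : ℝ) < (2 : ℝ) ^ (a - 1) := by linarith
  have hAB : (2 : ℝ) ^ a ≤ 2 * (2 : ℝ) ^ (a - 1) := by
    rcases Nat.eq_zero_or_pos a with h0 | h0
    · subst h0; norm_num
    · have : a = (a - 1) + 1 := by omega
      have e : (2 : ℝ) ^ a = 2 * (2 : ℝ) ^ (a - 1) := by
        calc (2 : ℝ) ^ a = (2 : ℝ) ^ ((a - 1) + 1) := by rw [← this]
          _ = 2 * (2 : ℝ) ^ (a - 1) := by rw [pow_succ]; ring
      exact le_of_eq e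
  have hNB : (2 : ℝ) ^ (a - 1) ≤ (N : ℝ) := by exact_mod_cast ha
  have hs1 : ((Nat.sqrt (2 ^ a) : ℕ) : ℝ) ≤ Real.sqrt ((2 : ℝ) ^ a) := by
    have := Real.nat_sqrt_le_real_sqrt (a := 2 ^ a)
    simpa using this
  have hs2 : ((Nat.sqrt (N / 2 ^ (a - 1)) : ℕ) : ℝ) ≤ Real.sqrt ((N : ℝ) / (2 : ℝ) ^ (a - 1)) := by
    have h1 := Real.nat_sqrt_le_real_sqrt (a := N / 2 ^ (a - 1))
    have h2 : ((N / 2 ^ (a - 1) : ℕ) : ℝ) ≤ (N : ℝ) / (2 : ℝ) ^ (a - 1) := by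
      have := Nat.cast_div_le (α := ℝ) (m := N) (n := 2 ^ (a - 1))
      simpa using this
    exact h1.trans (Real.sqrt_le_sqrt h2)
  have hu : 1 ≤ Real.sqrt ((2 : ℝ) ^ a) := by
    rw [Real.one_le_sqrt]; exact hA
  have hv : 1 ≤ Real.sqrt ((N : ℝ) / (2 : ℝ) ^ (a - 1)) := by
    rw [Real.one_le_sqrt, one_le_div hBpos]; exact hNB
  have huv : Real.sqrt ((2 : ℝ) ^ a) * Real.sqrt ((N : ℝ) / (2 : ℝ) ^ (a - 1))
      ≤ 1415 / 1000 * Real.sqrt N := by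
    rw [← Real.sqrt_mul (by positivity)]
    have h1 : (2 : ℝ) ^ a * ((N : ℝ) / (2 : ℝ) ^ (a - 1)) ≤ (1415 / 1000) ^ 2 * (N : ℝ) := by
      have : (2 : ℝ) ^ a * ((N : ℝ) / (2 : ℝ) ^ (a - 1)) ≤ 2 * (N : ℝ) := by
        rw [← mul_div_assoc, div_le_iff₀ hBpos]
        have hN0 : (0 : ℝ) ≤ (N : ℝ) := Nat.cast_nonneg N
        nlinarith
      have hN0 : (0 : ℝ) ≤ (N : ℝ) := Nat.cast_nonneg N
      nlinarith
    calc Real.sqrt ((2 : ℝ) ^ a * ((N : ℝ) / (2 : ℝ) ^ (a - 1)))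
        ≤ Real.sqrt ((1415 / 1000) ^ 2 * (N : ℝ)) := Real.sqrt_le_sqrt h1
      _ = 1415 / 1000 * Real.sqrt N := by
          rw [Real.sqrt_mul (by positivity), Real.sqrt_sq (by norm_num)]
  have hl : (1 : ℝ) ≤ (L : ℝ) := by exact_mod_cast hL
  exact clsExp_real (Nat.cast_nonneg _) (Nat.cast_nonneg _) hs1 hs2 hu hv hl
    (Real.sqrt_nonneg _) huv

/-- unfold `expoR`, `totExp`; for `a < Nat.log 2 N + 2`: `2 ^ (a - 1) ≤ 2 ^ Nat.log 2 N ≤ N`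
(`Nat.pow_log_le_self`); the first term is `(Nat.sqrt N + 1) * (3 L) ≤ 6 L sqrt N`. -/
theorem expoR_le (N L : ℕ) (hN : 1 ≤ N) (hL : 1 ≤ L) :
    (expoR N (3 * L) L : ℝ)
      ≤ 60 * ((Nat.log 2 N : ℝ) + 2) * (L : ℝ) ^ 2 * Real.sqrt N := by
  unfold expoR totExp
  rw [Nat.cast_add, Nat.cast_sum]
  have hl : (1 : ℝ) ≤ (L : ℝ) := by exact_mod_cast hL
  have hNr : (1 : ℝ) ≤ (N : ℝ) := by exact_mod_cast hN
  have hsN : 1 ≤ Real.sqrt N := by rw [Real.one_le_sqrt]; exact hNr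
  have hlog : (0 : ℝ) ≤ (Nat.log 2 N : ℝ) := Nat.cast_nonneg _
  have hsum : ∑ a ∈ Finset.range (Nat.log 2 N + 2),
      (clsExp (fun s => (Nat.sqrt s + 1) * (3 * L)) N L a : ℝ)
      ≤ ((Nat.log 2 N : ℝ) + 2) * (57 * (L : ℝ) ^ 2 * Real.sqrt N) := by
    calc _ ≤ ∑ _a ∈ Finset.range (Nat.log 2 N + 2), (57 * (L : ℝ) ^ 2 * Real.sqrt N) := by
          apply Finset.sum_le_sum
          intro a ha
          apply clsExp_le N L a hL
          have h1 : a - 1 ≤ Nat.log 2 N := by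
            have := Finset.mem_range.1 ha
            omega
          exact (Nat.pow_le_pow_right (by norm_num) h1).trans
            (Nat.pow_log_le_self 2 (by omega))
      _ = _ := by
          rw [Finset.sum_const, Finset.card_range, nsmul_eq_mul]
          push_cast
          ring
  have hfirst : (((Nat.sqrt N + 1) * (3 * L) : ℕ) : ℝ) ≤ 6 * (L : ℝ) ^ 2 * Real.sqrt N := by
    push_cast
    have h1 : ((Nat.sqrt N : ℕ) : ℝ) ≤ Real.sqrt N := Real.nat_sqrt_le_real_sqrt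
    have h2 : ((Nat.sqrt N : ℕ) : ℝ) + 1 ≤ 2 * Real.sqrt N := by linarith
    have h3 : (((Nat.sqrt N : ℕ) : ℝ) + 1) * (3 * (L : ℝ)) ≤ (2 * Real.sqrt N) * (3 * (L : ℝ)) :=
      mul_le_mul_of_nonneg_right h2 (by linarith)
    have h4 : (L : ℝ) * Real.sqrt N ≤ (L : ℝ) ^ 2 * Real.sqrt N := by
      apply mul_le_mul_of_nonneg_right _ (by linarith)
      nlinarith
    nlinarith
  have hP : 0 ≤ (L : ℝ) ^ 2 * Real.sqrt N := by positivity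
  have hfin : 6 * (L : ℝ) ^ 2 * Real.sqrt N + ((Nat.log 2 N : ℝ) + 2) * (57 * (L : ℝ) ^ 2 * Real.sqrt N)
      ≤ 60 * ((Nat.log 2 N : ℝ) + 2) * (L : ℝ) ^ 2 * Real.sqrt N := by
    nlinarith [mul_nonneg hlog hP]
  linarith

end Vale.Agent.Lib.P368
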