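import Mathlib

/-! # The accumulated error at depth four (pure real inequality) -/

namespace Vale.Agent.Lib.P368

theorem errR_sq_le_two_pow (L : ℕ) (h : 4 ≤ L) : L ^ 2 ≤ 2 ^ L := by
  induction L, h using Nat.le_induction with
  | base => norm_num
  | succ n hn ih =>
    rw [pow_succ 2 n]
    nlinarith

theorem errR_pow_le (x : ℝ) (hx : 0 ≤ x) (m : ℕ) (hm : (m : ℝ) * x ≤ 1 / 2) :
    (1 + x) ^ m ≤ 1 + 2 * ((m : ℝ) * x) := by
  have a1 : 1 + x ≤ Real.exp x := by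
    have := Real.add_one_le_exp x; linarith
  have a2 : (1 + x) ^ m ≤ Real.exp x ^ m := pow_le_pow_left₀ (by linarith) a1 m
  have a3 : Real.exp x ^ m = Real.exp ((m : ℝ) * x) := by rw [← Real.exp_nat_mul]
  have ht0 : 0 ≤ (m : ℝ) * x := by positivity
  have a4 : Real.exp ((m : ℝ) * x) ≤ 1 / (1 - (m : ℝ) * x) :=
    Real.exp_bound_div_one_sub_of_interval ht0 (by linarith)
  have a5 : 1 / (1 - (m : ℝ) * x) ≤ 1 + 2 * ((m : ℝ) * x) := by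
    rw [div_le_iff₀ (by linarith)]
    nlinarith
  rw [a3] at a2
  linarith

theorem errR_final (δ ε : ℝ) (hδ0 : 0 ≤ δ) (hε1 : ε ≤ 1) (hδ : δ ≤ 12 * ε / 1000) :
    (2 * (1 + δ) - 1) * (1 + δ) * (2 * (1 + δ) - 1) - 1 ≤ ε / 4 := by
  have hδ1 : δ ≤ 12 / 1000 := by linarith
  have e1 : (2 * (1 + δ) - 1) * (1 + δ) * (2 * (1 + δ) - 1) - 1
      = 5 * δ + δ * (8 * δ + 4 * δ ^ 2) := by ring
  have h2 : 8 * δ + 4 * δ ^ 2 ≤ 2 := by nlinarith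
  have h3 : δ * (8 * δ + 4 * δ ^ 2) ≤ δ * 2 := mul_le_mul_of_nonneg_left h2 hδ0
  rw [e1]
  linarith

/-- Put `y = 2 ^ L ≥ 1000 (N + 1) / ε ≥ 2000`, so `L ≥ 4` and `L ^ 2 ≤ y` (induction).
`K ≤ 2 sqrt N * L`, `K ^ 2 ≤ 4 N L ^ 2 ≤ 4 N y`, `2 ^ (3 L) = y ^ 3`.
Hence `84 K ^ 2 (2 / y ^ 3) ≤ 672 N / y ^ 2 ≤ 1 / y` and the base of the power is `≤ 1 + 3 / y`, as is
`1 + 2 / y ^ 3`.  So `e ≤ (1 + 3 / y) ^ m` with `m = Nat.log 2 N + 3 ≤ 2 (N + 1)`,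
`m * (3 / y) ≤ 6 ε / 1000`, `(1 + x) ^ m ≤ exp (m x) ≤ 1 + 2 m x`, so `δ = e - 1 ≤ 12 ε / 1000`, and
`(1 + 2 δ) (1 + δ) (1 + 2 δ) - 1 ≤ 7 δ ≤ ε / 4`. -/
theorem errR (N L : ℕ) (ε : ℝ) (hε0 : 0 < ε) (hε1 : ε ≤ 1) (hN : 1 ≤ N)
    (hL : 1000 * ((N : ℝ) + 1) / ε ≤ 2 ^ L) (K e : ℝ)
    (hK : K = (((Nat.sqrt N + 1) * L : ℕ) : ℝ))
    (he : e = (1 + 2 / 2 ^ (3 * L)) * (1 + 2 / 2 ^ L + 84 * K ^ 2 * (2 / 2 ^ (3 * L)))
      ^ (Nat.log 2 N + 2)) :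
    (2 : ℝ) / 2 ^ (3 * L) ≤ 1 / 8 ∧ 224 * K ^ 2 * (2 / 2 ^ (3 * L)) ≤ 1 ∧
      (2 * e - 1) * e * (2 * e - 1) - 1 ≤ ε / 4 := by
  have hN1 : (1 : ℝ) ≤ N := by exact_mod_cast hN
  set y : ℝ := 2 ^ L with hy
  have hy3 : (2 : ℝ) ^ (3 * L) = y ^ 3 := by
    rw [hy, ← pow_mul, mul_comm]
  rw [hy3] at he ⊢
  -- size of y
  have h1 : 1000 * ((N : ℝ) + 1) ≤ y * ε := by
    rwa [div_le_iff₀ hε0] at hL
  have hy0 : 1000 * ((N : ℝ) + 1) ≤ y := by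
    have hypos : 0 ≤ y := by positivity
    nlinarith
  have hy2000 : (2000 : ℝ) ≤ y := by linarith
  have hypos : 0 < y := by linarith
  -- L ≥ 4
  have hL4 : 4 ≤ L := by
    by_contra hc
    have hc' : L ≤ 3 := by omega
    have : (2 : ℝ) ^ L ≤ 2 ^ 3 := pow_le_pow_right₀ (by norm_num) hc'
    rw [← hy] at this
    norm_num at this
    linarith
  have hLy : ((L : ℝ)) ^ 2 ≤ y := by
    have := errR_sq_le_two_pow L hL4
    rw [hy]
    exact_mod_cast this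
  -- the square root
  have hs : ((Nat.sqrt N + 1 : ℕ) : ℝ) ^ 2 ≤ 4 * N := by
    have s1 : Nat.sqrt N * Nat.sqrt N ≤ N := Nat.sqrt_le N
    have s2 : 0 < Nat.sqrt N := Nat.sqrt_pos.mpr hN
    have : (Nat.sqrt N + 1) ^ 2 ≤ 4 * N := by nlinarith
    exact_mod_cast this
  have hK2 : K ^ 2 ≤ 4 * N * y := by
    rw [hK]
    push_cast
    have e1 : (((Nat.sqrt N : ℝ) + 1) * (L : ℝ)) ^ 2 = ((Nat.sqrt N : ℝ) + 1) ^ 2 * (L : ℝ) ^ 2 := by
      ring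
    rw [e1]
    have hs' : ((Nat.sqrt N : ℝ) + 1) ^ 2 ≤ 4 * N := by
      have := hs; push_cast at this; exact this
    have : ((Nat.sqrt N : ℝ) + 1) ^ 2 * (L : ℝ) ^ 2 ≤ (4 * N) * y :=
      mul_le_mul hs' hLy (by positivity) (by positivity)
    exact this
  have hK0 : 0 ≤ K ^ 2 := sq_nonneg K
  have hy3pos : 0 < y ^ 3 := by positivity
  -- K^2 * (2 / y^3) ≤ 8 N / y^2
  have hKy : K ^ 2 * (2 / y ^ 3) ≤ 8 * N / y ^ 2 := by
    rw [mul_div_assoc', div_le_div_iff₀ hy3pos (by positivity)]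
    have : K ^ 2 * 2 * y ^ 2 ≤ (4 * N * y) * 2 * y ^ 2 := by
      have : 0 ≤ 2 * y ^ 2 := by positivity
      nlinarith
    nlinarith
  have hNy : 8 * (N : ℝ) / y ^ 2 ≤ (1 / 125) / y := by
    rw [div_le_div_iff₀ (by positivity) hypos]
    nlinarith
  have hinv : 1 / y ≤ 1 / 2000 := by
    apply one_div_le_one_div_of_le (by norm_num) hy2000
  refine ⟨?_, ?_, ?_⟩
  · rw [div_le_div_iff₀ hy3pos (by norm_num)]
    nlinarith [pow_le_pow_left₀ (by norm_num : (0 : ℝ) ≤ 2000) hy2000 3]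
  · have : 224 * K ^ 2 * (2 / y ^ 3) = 224 * (K ^ 2 * (2 / y ^ 3)) := by ring
    rw [this]
    have h3 : (1 / 125) / y = (1 / 125) * (1 / y) := by ring
    nlinarith
  · set x : ℝ := 3 / y with hx
    have hx0 : 0 ≤ x := by positivity
    have hxy : x = 3 * (1 / y) := by rw [hx]; ring
    -- base
    have hb : 1 + 2 / y + 84 * K ^ 2 * (2 / y ^ 3) ≤ 1 + x := by
      have e1 : 84 * K ^ 2 * (2 / y ^ 3) = 84 * (K ^ 2 * (2 / y ^ 3)) := by ring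
      have e2 : (1 / 125) / y = (1 / 125) * (1 / y) := by ring
      have e3 : 2 / y = 2 * (1 / y) := by ring
      have hpos : 0 ≤ 1 / y := by positivity
      rw [e1, e3, hxy]
      nlinarith
    have hb1 : 1 ≤ 1 + 2 / y + 84 * K ^ 2 * (2 / y ^ 3) := by
      have : 0 ≤ 2 / y := by positivity
      have : 0 ≤ 84 * K ^ 2 * (2 / y ^ 3) := by positivity
      linarith
    have hc : 1 + 2 / y ^ 3 ≤ 1 + x := by
      have : 2 / y ^ 3 ≤ 3 / y := by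
        rw [div_le_div_iff₀ hy3pos hypos]
        nlinarith [pow_le_pow_left₀ (by norm_num : (0 : ℝ) ≤ 2000) hy2000 2, sq_nonneg y]
      linarith
    have hc1 : 1 ≤ 1 + 2 / y ^ 3 := by
      have : 0 ≤ 2 / y ^ 3 := by positivity
      linarith
    set m : ℕ := Nat.log 2 N + 2 with hm
    have hpow : (1 + 2 / y + 84 * K ^ 2 * (2 / y ^ 3)) ^ m ≤ (1 + x) ^ m :=
      pow_le_pow_left₀ (by linarith) hb m
    have hpow1 : 1 ≤ (1 + 2 / y + 84 * K ^ 2 * (2 / y ^ 3)) ^ m := one_le_pow₀ hb1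
    have he1 : 1 ≤ e := by
      rw [he]
      calc (1 : ℝ) = 1 * 1 := by ring
        _ ≤ _ := mul_le_mul hc1 hpow1 (by norm_num) (by linarith)
    have he2 : e ≤ (1 + x) ^ (m + 1) := by
      have e5 : (1 + x) ^ (m + 1) = (1 + x) * (1 + x) ^ m := by ring
      rw [he, e5]
      exact mul_le_mul hc hpow (by linarith) (by linarith)
    -- m + 1 ≤ 2 (N + 1)
    have hmN : ((m + 1 : ℕ) : ℝ) ≤ 2 * ((N : ℝ) + 1) := by
      have : Nat.log 2 N ≤ N := Nat.log_le_self 2 N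
      have : m + 1 ≤ 2 * (N + 1) := by omega
      exact_mod_cast this
    have hmx : ((m + 1 : ℕ) : ℝ) * x ≤ 6 * ε / 1000 := by
      have h5 : ((N : ℝ) + 1) * (1 / y) ≤ ε / 1000 := by
        rw [mul_one_div, div_le_div_iff₀ hypos (by norm_num)]
        linarith
      have hpos : 0 ≤ 1 / y := by positivity
      have h6 : ((m + 1 : ℕ) : ℝ) * (1 / y) ≤ 2 * ((N : ℝ) + 1) * (1 / y) :=
        mul_le_mul_of_nonneg_right hmN hpos
      have h7 : ((m + 1 : ℕ) : ℝ) * x = 3 * (((m + 1 : ℕ) : ℝ) * (1 / y)) := by rw [hxy]; ring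
      rw [h7]
      linarith
    have he3 := errR_pow_le x hx0 (m + 1) (by linarith)
    have hδ : e - 1 ≤ 12 * ε / 1000 := by linarith
    set δ : ℝ := e - 1 with hδdef
    have hδ0 : 0 ≤ δ := by linarith
    have hee : e = 1 + δ := by rw [hδdef]; ring
    rw [hee]
    exact errR_final δ ε hδ0 hε1 hδ

end Vale.Agent.Lib.P368
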