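import Vale.Agent.Lib.P368.D4R.Dyadic
import Vale.Agent.Lib.P368.D4.Top4

/-! # Four layers of reflections, robust version -/

namespace Vale.Agent.Lib.P368

open Matrix Finset
open scoped Matrix.Norms.L2Operator

set_option linter.unusedSectionVars false

section general

variable {ι : Type} [Fintype ι] [DecidableEq ι]

/-- the observable below the last layer `l₄`, a layer `ρ₃` and a stack `σ` -/
theorem top_apx (σ ρ₃ l₄ : List (Finset ι × (ι → M2))) (hσ : ∀ r ∈ σ, ReflValid r)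
    (hρ₃ : rlistValid ρ₃) (h₄ : rlistValid l₄) (o : ι) (π : M2) (hπ : Pr π) (e c : ℝ)
    (hc1 : 1 ≤ c) (H : ∀ B : ι → M2, SiteP B → Apx σ e c (conjBy ρ₃ (prodOp B))) :
    Apx σ ((2 * e - 1) * e * (2 * e - 1)) ((1 + 2 * c) * c * (1 + 2 * c))
      (conjBy ρ₃ (conjBy l₄ (prodOp (atSite o π)))) := by
  have aπ := H _ (siteP_atSite o π hπ)
  have he1 : 1 ≤ e := aπ.one_le
  rcases top4_form o π l₄ h₄ with h | ⟨r, hr, h⟩
  · rw [h]
    refine aπ.mono ?_ ?_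
    · have h1 : 1 ≤ 2 * e - 1 := by linarith
      have h2 : e ≤ (2 * e - 1) * e := by nlinarith
      have h3 : 0 ≤ (2 * e - 1) * e := by nlinarith
      nlinarith
    · have h1 : 1 ≤ 1 + 2 * c := by linarith
      have h2 : c ≤ (1 + 2 * c) * c := by nlinarith
      have h3 : 0 ≤ (1 + 2 * c) * c := by nlinarith
      nlinarith
  · rw [h]
    have vr := h₄.1 r hr
    have aq := H r.2 vr.site
    have aR := Apx.one_sub_two hσ aq
    have eR : conjBy ρ₃ (reflOp r) = 1 - (2 : ℂ) • conjBy ρ₃ (prodOp r.2) := by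
      unfold reflOp
      rw [conjBy_sub, conjBy_one ρ₃ hρ₃.1, conjBy_smul]
    rw [← eR] at aR
    have nR : ‖conjBy ρ₃ (reflOp r)‖ ≤ 1 :=
      (opn_conjBy_le ρ₃ hρ₃.1 _).trans (opn_reflOp_le vr)
    have nπ : ‖conjBy ρ₃ (prodOp (atSite o π))‖ ≤ 1 :=
      (opn_conjBy_le ρ₃ hρ₃.1 _).trans (opn_prodOp_siteP_le (siteP_atSite o π hπ))
    have nRπ : ‖conjBy ρ₃ (reflOp r) * conjBy ρ₃ (prodOp (atSite o π))‖ ≤ 1 :=
      (norm_mul_le _ _).trans (mul_le_one₀ nR (norm_nonneg _) nπ)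
    rw [conjBy_mul ρ₃ hρ₃.1, conjBy_mul ρ₃ hρ₃.1]
    exact Apx.mul hσ nRπ nR (Apx.mul hσ nR nπ aR aπ) aR

theorem heis4R_bound (inp : ι → Bool) (o : ι) (b : Bool) (u : ι → M2)
    (l₄ ρ₃ ρ₂ l₁ : List (Finset ι × (ι → M2))) (hu : LocalU u) (h₄ : rlistValid l₄)
    (hρ₃ : rlistValid ρ₃) (hρ₂ : rlistValid ρ₂) (h₁ : rlistValid l₁) (e c : ℝ) (hc1 : 1 ≤ c)
    (H : ∀ B : ι → M2, SiteP B → Apx ρ₂ e c (conjBy ρ₃ (prodOp B))) :
    ‖Phi inp ((prodOp u * (rlistOp l₄ * (rlistOp ρ₃ * (rlistOp ρ₂ * rlistOp l₁))))ᴴ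
      * prodOp (atSite o (ketbra (eb b) (eb b)))
      * (prodOp u * (rlistOp l₄ * (rlistOp ρ₃ * (rlistOp ρ₂ * rlistOp l₁)))))‖
      ≤ ((2 * e - 1) * e * (2 * e - 1) - 1)
        + (1 + 2 * c) * c * (1 + 2 * c) * gam ^ numInp inp := by
  have e1 : (prodOp u)ᴴ * prodOp (atSite o (ketbra (eb b) (eb b))) * prodOp u
      = prodOp (atSite o ((u o)ᴴ * ketbra (eb b) (eb b) * u o)) := by
    rw [prodOp_conjTranspose, prodOp_mul, prodOp_mul]
    congr 1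
    funext j
    by_cases hj : j = o
    · subst hj
      rw [atSite_self, atSite_self]
    · rw [atSite_ne _ _ hj, atSite_ne _ _ hj, Matrix.mul_one, hu.star_mul j]
  have e2 : (prodOp u * (rlistOp l₄ * (rlistOp ρ₃ * (rlistOp ρ₂ * rlistOp l₁))))ᴴ
      * prodOp (atSite o (ketbra (eb b) (eb b)))
      * (prodOp u * (rlistOp l₄ * (rlistOp ρ₃ * (rlistOp ρ₂ * rlistOp l₁))))
      = conjBy l₁ (conjBy ρ₂ (conjBy ρ₃ (conjBy l₄
        (prodOp (atSite o ((u o)ᴴ * ketbra (eb b) (eb b) * u o)))))) := by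
    rw [← e1]
    simp only [conjBy, Matrix.conjTranspose_mul, Matrix.mul_assoc]
  rw [e2]
  exact (top_apx ρ₂ ρ₃ l₄ hρ₂.1 hρ₃ h₄ o _ ((pr_eb b).conj (hu o)) e c hc1 H).bound inp l₁ h₁

end general

/-- the exponent at depth four: accuracy `L₂` in the second layer, `L` in the third -/
def expoR (N L₂ L : ℕ) : ℕ := totExp (fun s => (Nat.sqrt s + 1) * L₂) N L

/-- the bound for circuits of entangling depth at most four, with the free integer parameters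
`L₂` and `L` (the accuracies in the second and in the third layer) -/
theorem depth_four_paramR {n a : ℕ} (C : List (List (Gate (Fin n ⊕ Fin a))))
    (hC : circuitValid C) (hd : entanglingDepth C ≤ 4) (o : Fin n ⊕ Fin a) (L₂ L : ℕ)
    (K : ℝ) (hK : K = (((Nat.sqrt (n + a) + 1) * L : ℕ) : ℝ)) (h8 : (2 : ℝ) / 2 ^ L₂ ≤ 1 / 8)
    (hsmall : 224 * K ^ 2 * (2 / 2 ^ L₂) ≤ 1) (e c : ℝ)
    (he : e = (1 + 2 / 2 ^ L₂) * (1 + 2 / 2 ^ L + 84 * K ^ 2 * (2 / 2 ^ L₂))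
      ^ (Nat.log 2 (n + a) + 2))
    (hc : c = 39 ^ expoR (n + a) L₂ L) :
    |parityCorrelation C o|
      ≤ 2 * (((2 * e - 1) * e * (2 * e - 1) - 1) + (1 + 2 * c) * c * (1 + 2 * c) * gam ^ n) := by
  obtain ⟨u, l₄, l₃, l₂, l₁, hu, h₄, h₃, h₂, h₁, heq⟩ := circuit_nf_four C hC hd
  have hcard : Fintype.card (Fin n ⊕ Fin a) = n + a := by simp
  have hmono : Monotone (fun s => (Nat.sqrt s + 1) * L₂) := by
    intro s s' hs
    exact Nat.mul_le_mul_right _ (by have := Nat.sqrt_le_sqrt hs; omega)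
  have H : ∀ B : (Fin n ⊕ Fin a) → M2, SiteP B → Apx l₂ e c (conjBy l₃ (prodOp B)) := by
    intro B hB
    have := level_step l₂ h₂.1 (2 / 2 ^ L₂) _ hmono (levelApx_two l₂ h₂ L₂) (by positivity) h8 L K
      (by rw [hcard]; exact hK) hsmall l₃ h₃ B hB
    rw [hcard] at this
    rw [he, hc]
    exact this
  have hc1 : 1 ≤ c := by rw [hc]; exact one_le_pow₀ (by norm_num)
  have h := corr_eq C o
  rw [heq] at h
  have b0 := heis4R_bound (fun j : Fin n ⊕ Fin a => Sum.isLeft j) o false u l₄ l₃ l₂ l₁ hu h₄ h₃ h₂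
    h₁ e c hc1 H
  have b1 := heis4R_bound (fun j : Fin n ⊕ Fin a => Sum.isLeft j) o true u l₄ l₃ l₂ l₁ hu h₄ h₃ h₂
    h₁ e c hc1 H
  rw [numInp_sum] at b0 b1
  have : |parityCorrelation C o| = ‖((parityCorrelation C o : ℝ) : ℂ)‖ := by
    rw [Complex.norm_real, Real.norm_eq_abs]
  rw [this, h]
  refine (norm_sub_le _ _).trans ?_
  linarith

end Vale.Agent.Lib.P368
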